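import Claimed.Agent.R316.Pack026_2
import Claimed.Agent.R316.Base.Heat.Api
import Claimed.Agent.R316.Base.Geod.HR
import Claimed.Agent.R316.Base.SV.Api
import Claimed.Agent.R316.Base.Rich.Visc

/-!
# Row 316, Section 2, leaves `S2-RicPos`, `S2-Psi`, `S2-Trunc`
Statement file by helper97; recipes in the subtasks #4532, #7171, #4527.  Several leaves share this file (captain's file budget): edit only your own theorem and put your auxiliary
lemmas directly above it.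
-/

set_option autoImplicit false
open scoped ContDiff ComplexOrder Topology
open MeasureTheory

namespace Claimed.Agent.R316

variable {V : Type} [NormedAddCommGroup V] [NormedSpace ℝ V] [MeasurableSpace V] [BorelSpace V]
variable [FiniteDimensional ℝ V]
variable {n : ℕ} (𝓜 : CMfd V (Fin n)) (g : HFam V (Fin n)) (o : V)

/-! ### tools -/

section tools

variable {𝓜 g}
variable {Φ : CE (Fin n) → V} {U : Set (CE (Fin n))} {z : CE (Fin n)} {u : V → ℝ}

/-- quadratic value of the chain rule. -/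
theorem s2_qf_ddc_comp (χ : ℝ → ℝ) (hu : 𝓜.Smooth u) (hΦ : 𝓜.IsHol Φ U) (hz : z ∈ U)
    (hχ : ContDiffAt ℝ 2 χ (u (Φ z))) (v : Fin n → ℂ) :
    qf (ddc (fun x => χ (u x)) Φ z) v = deriv χ (u (Φ z)) * qf (ddc u Φ z) v
      + deriv (deriv χ) (u (Φ z)) * qf (gradF u Φ z) v := by
  rw [ddc_comp χ hu hΦ hz hχ, qf_add, qf_smul, qf_smul]

theorem s2_qf_gradF_le (hg : IsMetric 𝓜 g) (u : V → ℝ) (hΦ : 𝓜.IsHol Φ U) (hz : z ∈ U)
    (v : Fin n → ℂ) : qf (gradF u Φ z) v ≤ gradSq 𝓜 g u (Φ z) * qf (g Φ z) v := by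
  have h := qf_mono (gradF_le hg u Φ U hΦ z hz) v
  rwa [smulF, qf_smul] at h

theorem s2_qf_gradF_nonneg (u : V → ℝ) (Φ : CE (Fin n) → V) (z : CE (Fin n)) (v : Fin n → ℂ) :
    0 ≤ qf (gradF u Φ z) v := qf_nonneg (gradF_posSemidef u Φ z) v

theorem s2_measurable_indicator (hu : ContinuousOn u 𝓜.carrier) :
    Measurable (𝓜.carrier.indicator u) := by
  classical
  rw [← Set.piecewise_eq_indicator]
  exact hu.measurable_piecewise continuousOn_const (g0_measurableSet_carrier 𝓜)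

end tools

/-! ### leaf `S2-RicPos` -/

theorem st2RicPos : St2RicPos 𝓜 g := fun I _ _ hΦ _ hz =>
  s2_ricF_posDef I.n_pos I.kahler I.bisec hΦ hz


/-! ### leaf `S2-Psi`
Busemann function `b = lim (d(o, γ j) - d(·, γ j))` of a ray (`exists_ray`); `sv2` gives lower support functions of
`- d(·, γ j)` with `dd ≥ (c_K - 1/(2 l)) g` on compact sets; `ddGe_of_lowerSupp`, `ddGe_of_tendsto` (monotone + 1-Lipschitz ⟹ locally uniform
convergence, Dini or Arzela-Ascoli), `richberg_strict` with `ε = 1`; `b ≤ r`.  (imports to add: `Base/Geod/Api`, `Base/SV/Api`, `Base/Rich/Api`.) -/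

set_option maxHeartbeats 1000000 in
theorem st2Psi : St2Psi 𝓜 g o := by
  intro I ho
  have hm : IsMetric 𝓜 g := I.kahler.toIsMetric
  have hconn := I.conn
  obtain ⟨γ, hγ0, hγM, hγd⟩ := geod_exists_metric_ray hm hconn I.proper I.noncompact ho
  have hγj : ∀ j : ℕ, γ j ∈ 𝓜.carrier := fun j => hγM _ (Set.mem_Ici.2 (Nat.cast_nonneg j))
  obtain ⟨bj, hbj⟩ : ∃ bj : ℕ → V → ℝ, bj = fun (j : ℕ) x => (j : ℝ) - hdist 𝓜 g (γ j) x := ⟨_, rfl⟩
  have hbj' : ∀ j x, bj j x = (j : ℝ) - hdist 𝓜 g (γ j) x := fun j x => by rw [hbj]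
  -- bound
  have hub : ∀ j, ∀ x ∈ 𝓜.carrier, bj j x ≤ hdist 𝓜 g o x := by
    intro j x hx
    have h1 := hγd 0 (Set.mem_Ici.2 le_rfl) j (Set.mem_Ici.2 (Nat.cast_nonneg j))
    rw [hγ0, zero_sub, abs_neg, abs_of_nonneg (Nat.cast_nonneg j)] at h1
    have h2 := hdist_triangle hm hconn ho hx (hγj j)
    rw [hdist_comm hm x (γ j)] at h2
    rw [hbj']
    linarith
  -- monotone
  have hmono : ∀ x ∈ 𝓜.carrier, Monotone (fun j => bj j x) := by
    intro x hx j k hjk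
    have h1 := hγd k (Set.mem_Ici.2 (Nat.cast_nonneg k)) j (Set.mem_Ici.2 (Nat.cast_nonneg j))
    have hjk' : (j : ℝ) ≤ k := Nat.cast_le.2 hjk
    rw [abs_of_nonneg (by linarith)] at h1
    have h2 := hdist_triangle hm hconn (hγj k) (hγj j) hx
    simp only [hbj']
    linarith
  -- Lipschitz
  have hlipj : ∀ j, ∀ x ∈ 𝓜.carrier, ∀ y ∈ 𝓜.carrier, |bj j x - bj j y| ≤ hdist 𝓜 g x y := by
    intro j x hx y hy
    have h1 := hdist_triangle hm hconn (hγj j) hx hy
    have h2 := hdist_triangle hm hconn (hγj j) hy hx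
    rw [hdist_comm hm y x] at h2
    rw [hbj', hbj', abs_le]
    constructor <;> linarith
  obtain ⟨b, hb⟩ : ∃ b : V → ℝ, b = fun x => ⨆ j, bj j x := ⟨_, rfl⟩
  have hlim : ∀ x ∈ 𝓜.carrier, Filter.Tendsto (fun j => bj j x) Filter.atTop (𝓝 (b x)) := by
    intro x hx
    rw [hb]
    exact tendsto_atTop_ciSup (hmono x hx) ⟨hdist 𝓜 g o x, by rintro _ ⟨j, rfl⟩; exact hub j x hx⟩
  have hbub : ∀ x ∈ 𝓜.carrier, b x ≤ hdist 𝓜 g o x := fun x hx =>
    le_of_tendsto' (hlim x hx) fun j => hub j x hx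
  have hlip : ∀ x ∈ 𝓜.carrier, ∀ y ∈ 𝓜.carrier, |b x - b y| ≤ 1 * hdist 𝓜 g x y := by
    intro x hx y hy
    rw [one_mul]
    exact le_of_tendsto' ((hlim x hx).sub (hlim y hy)).abs fun j => hlipj j x hx y hy
  have hsmall : ∀ x ∈ 𝓜.carrier, ∀ ε : ℝ, 0 < ε → hball 𝓜 g x ε ∈ 𝓝[𝓜.carrier] x := fun x hx ε hε =>
    (hasBasis_nhdsWithin_hball hm hconn hx).mem_of_mem hε
  have hcontb : ContinuousOn b 𝓜.carrier := by
    intro x hx
    rw [ContinuousWithinAt, Metric.tendsto_nhds]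
    intro ε hε
    filter_upwards [hsmall x hx ε hε] with y hy
    rw [Real.dist_eq, abs_sub_comm]
    have := hlip x hx y hy.1
    rw [one_mul] at this
    exact this.trans_lt hy.2
  have hcontj : ∀ j, ContinuousOn (bj j) 𝓜.carrier := by
    intro j
    rw [hbj]
    exact continuousOn_const.sub (continuousOn_hdist_right hm hconn (hγj j))
  -- locally uniform convergence of any shifted sequence
  have hunif : ∀ (N : ℕ) (Ω : Set V), TendstoLocallyUniformlyOn (fun j => bj (j + N)) b Filter.atTop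
      (𝓜.carrier ∩ Ω) := by
    intro N Ω
    rw [Metric.tendstoLocallyUniformlyOn_iff]
    intro ε hε x hx
    refine ⟨hball 𝓜 g x (ε / 3), nhdsWithin_mono _ Set.inter_subset_left
      (hsmall x hx.1 (ε / 3) (by positivity)), ?_⟩
    have h1 := ((hlim x hx.1).comp (Filter.tendsto_add_atTop_nat N))
    rw [Metric.tendsto_nhds] at h1
    filter_upwards [h1 (ε / 3) (by positivity)] with j hj y hy
    simp only [Function.comp, Real.dist_eq] at hj
    have h2 := hlip x hx.1 y hy.1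
    have h3 := hlipj (j + N) x hx.1 y hy.1
    have h4 := hy.2
    rw [one_mul] at h2
    rw [Real.dist_eq]
    rw [abs_lt] at hj ⊢
    rw [abs_le] at h2 h3
    constructor <;> linarith [hj.1, hj.2, h2.1, h2.2, h3.1, h3.2]
  -- viscosity lower bounds
  have hdd : ∀ x ∈ 𝓜.carrier, ∃ (O : Set V) (c : ℝ), IsOpen O ∧ x ∈ O ∧ 0 < c ∧
      DdGe 𝓜 O b (smulF (fun _ => c) g) := by
    intro x₀ hx₀
    obtain ⟨R, hR⟩ : ∃ R : ℝ, R = hdist 𝓜 g o x₀ + 1 := ⟨_, rfl⟩
    have hR0 : 0 < R := by rw [hR]; linarith [hdist_nonneg 𝓜 g o x₀]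
    obtain ⟨O, hO, hOe⟩ := exists_isOpen_hball hm hconn ho R
    obtain ⟨c, hc, hsv⟩ := sv2 I.kahler hconn I.proper I.bisec (I.proper o ho R)
      (fun p hp => hp.1)
    have hx₀O : x₀ ∈ O := by
      have : x₀ ∈ hball 𝓜 g o R := ⟨hx₀, by rw [hR]; linarith⟩
      rw [hOe] at this
      exact this.2
    refine ⟨O, c, hO, hx₀O, hc, ?_⟩
    obtain ⟨N, hN⟩ := exists_nat_ge (R + 1)
    obtain ⟨ε, hεdef⟩ : ∃ ε : ℕ → ℝ, ε = fun (j : ℕ) => 1 / (2 * ((j : ℝ) + 1)) := ⟨_, rfl⟩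
    have hε0 : Filter.Tendsto ε Filter.atTop (𝓝 0) := by
      have h1 := tendsto_one_div_add_atTop_nhds_zero_nat (𝕜 := ℝ)
      have h2 := h1.const_mul (1 / 2 : ℝ)
      rw [mul_zero] at h2
      rw [hεdef]
      refine h2.congr fun j => ?_
      have : (j : ℝ) + 1 ≠ 0 := by positivity
      field_simp
    refine ddGe_of_tendsto hm (hm.toIsHForm.smulF (CMfd.smooth_const c)) hO hε0
      (fun j => (hcontj (j + N)).mono Set.inter_subset_left) (fun j => ?_) (hunif N O)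
    refine ddGe_of_lowerSupp hm fun x hx η hη => ?_
    have hxb : x ∈ hball 𝓜 g o R := by rw [hOe]; exact hx
    have hl : (j : ℝ) + 1 ≤ hdist 𝓜 g (γ ((j + N : ℕ) : ℝ)) x := by
      have h1 := hub (j + N) x hx.1
      rw [hbj'] at h1
      have h2 := hxb.2
      push_cast at h1 ⊢
      linarith
    have hj0 : (0 : ℝ) ≤ j := Nat.cast_nonneg j
    obtain ⟨s, hs, hsle⟩ := hsv x ⟨hx.1, hxb.2.le⟩ (γ ((j + N : ℕ) : ℝ)) (hγj (j + N)) (by linarith)
    refine ⟨fun p => ((j + N : ℕ) : ℝ) - s p, ⟨hs.smooth.const_sub _, ?_, ?_⟩, ?_⟩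
    · filter_upwards [hs.le] with y hy
      rw [hbj']
      linarith
    · rw [hbj', hs.eq]
    · intro Φ U hΦ z hz hzx
      have h1 := hsle Φ U hΦ z hz hzx
      have hG := (hm.posDef hΦ z hz).posSemidef
      obtain ⟨l, hldef⟩ : ∃ l : ℝ, l = hdist 𝓜 g (γ ((j + N : ℕ) : ℝ)) x := ⟨_, rfl⟩
      rw [← hldef] at h1 hl
      have hcoef : 0 ≤ ε j - 1 / (2 * l) + η := by
        have : 1 / (2 * l) ≤ 1 / (2 * ((j : ℝ) + 1)) :=
          one_div_le_one_div_of_le (by positivity) (by linarith)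
        rw [hεdef]
        linarith
      have h2 := posSemidef_smul_real hcoef hG
      have h3 := h1.add h2
      have e : ddc (fun p => ((j + N : ℕ) : ℝ) - s p) Φ z = - ddc s Φ z := by
        rw [ddc_sub (CMfd.smooth_const _) hs.smooth hΦ hz, ddc_const, zero_sub]
      rw [e]
      convert h3 using 1
      simp only [Pi.sub_apply, smulF]
      push_cast
      module
  obtain ⟨w, hw1, hw2, hw3⟩ := richberg_strict hm hconn hcontb hlip hdd one_pos
  refine ⟨w, hw1, hw3, 1, fun y hy => ?_⟩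
  have h1 := hw2 y hy
  rw [abs_lt] at h1
  linarith [hbub y hy, h1.2]

/-! ### leaf `S2-Trunc` -/

theorem st2Trunc : St2Trunc 𝓜 g o := by
  intro I ho
  have S := anaSetting_of_initialData I
  have hm : IsMetric 𝓜 g := I.kahler.toIsMetric
  obtain ⟨η, C, hηs, hη01, hη1, hη0, hηd, -, hC1, hC2⟩ := ly_exists_profile
  have hC : 0 ≤ C := (abs_nonneg _).trans (hC1 0)
  have hfar : ∀ s : ℝ, 3 < s → deriv η s = 0 ∧ deriv (deriv η) s = 0 := by
    intro s hs
    have e : η =ᶠ[𝓝 s] fun _ => 0 := by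
      filter_upwards [Ioi_mem_nhds hs] with y hy using hη0 y (le_of_lt hy)
    have e' : deriv η =ᶠ[𝓝 s] fun _ => 0 := by
      have := e.deriv
      simpa using this
    refine ⟨by simpa using e'.self_of_nhds, ?_⟩
    rw [e'.deriv_eq]; simp
  refine ⟨11 * C, fun ε hε L hL => ?_⟩
  have hL0 : 0 < L := by linarith
  have hL2 : 0 < L ^ 2 := by positivity
  obtain ⟨ρ, hρ, hρ1, hρ2, hρ3⟩ := S.good o ho 1 one_pos
  set χ : ℝ → ℝ := fun s => 1 - η (s / L ^ 2) with hχdef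
  have hχs : ContDiff ℝ ∞ χ := contDiff_const.sub (hηs.comp (contDiff_id.div_const _))
  have hηdiff : Differentiable ℝ η := hηs.differentiable (by simp)
  have hη's : ContDiff ℝ ∞ (deriv η) := (contDiff_infty_iff_deriv.1 hηs).2
  have hη'diff : Differentiable ℝ (deriv η) := hη's.differentiable (by simp)
  have hχ1 : ∀ s, deriv χ s = - (deriv η (s / L ^ 2) / L ^ 2) := by
    intro s
    have h1 : HasDerivAt (fun s : ℝ => s / L ^ 2) (1 / L ^ 2) s := (hasDerivAt_id s).div_const _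
    have h2 := ((hηdiff (s / L ^ 2)).hasDerivAt.comp s h1).const_sub 1
    rw [show χ = fun s => 1 - (η ∘ fun s : ℝ => s / L ^ 2) s from rfl, h2.deriv]
    ring
  have hχ2 : ∀ s, deriv (deriv χ) s = - (deriv (deriv η) (s / L ^ 2) / L ^ 4) := by
    intro s
    have h1 : HasDerivAt (fun s : ℝ => s / L ^ 2) (1 / L ^ 2) s := (hasDerivAt_id s).div_const _
    have h2 := (((hη'diff (s / L ^ 2)).hasDerivAt.comp s h1).div_const (L ^ 2)).neg
    have h3 : deriv (fun s => - ((deriv η ∘ fun s : ℝ => s / L ^ 2) s / L ^ 2)) s = _ := h2.deriv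
    rw [show deriv χ = fun s => - ((deriv η ∘ fun s : ℝ => s / L ^ 2) s / L ^ 2) from funext hχ1,
      h3]
    field_simp
  have hFs : 𝓜.Smooth (fun y => χ (ρ y)) := hρ.comp hχs
  set f : V → ℝ := 𝓜.carrier.indicator (fun y => χ (ρ y)) with hfdef
  have hfe : Set.EqOn (fun y => χ (ρ y)) f 𝓜.carrier := fun y hy => by
    rw [hfdef, Set.indicator_of_mem hy]
  have hfs : 𝓜.Smooth f := hFs.congr hfe
  have hr : ∀ y, 0 ≤ hdist 𝓜 g o y := fun y => hdist_nonneg _ _ _ _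
  -- gradient bound
  have hgrad : ∀ y ∈ 𝓜.carrier, gradSq 𝓜 g (fun y => χ (ρ y)) y ≤ (3 * C / L) ^ 2 := by
    intro y hy
    rw [gradSq_comp g hy (hχs.differentiable (by simp) _) (hρ.diffAt hy), hχ1]
    by_cases h3 : 3 < ρ y / L ^ 2
    · rw [(hfar _ h3).1]; simp; positivity
    · push Not at h3
      have h4 : ρ y ≤ 3 * L ^ 2 := by rwa [div_le_iff₀ hL2] at h3
      have h5 := abs_le.1 (hρ1 y hy)
      have h6 : hdist 𝓜 g o y ≤ 2 * L := by
        have : hdist 𝓜 g o y ^ 2 ≤ (2 * L) ^ 2 := by nlinarith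
        exact abs_le_of_sq_le_sq' this (by positivity) |>.2
      have h7 : gradSq 𝓜 g ρ y ≤ (3 * L) ^ 2 :=
        (hρ3 y hy).trans (pow_le_pow_left₀ (by linarith [hr y]) (by linarith) 2)
      have h8 : deriv η (ρ y / L ^ 2) ^ 2 ≤ C ^ 2 := by
        rw [← sq_abs]; exact pow_le_pow_left₀ (abs_nonneg _) (hC1 _) 2
      have h9 : 0 ≤ gradSq 𝓜 g ρ y := gradSq_nonneg hm ρ hy
      calc (-(deriv η (ρ y / L ^ 2) / L ^ 2)) ^ 2 * gradSq 𝓜 g ρ y
          = deriv η (ρ y / L ^ 2) ^ 2 * gradSq 𝓜 g ρ y / L ^ 4 := by ring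
        _ ≤ C ^ 2 * (3 * L) ^ 2 / L ^ 4 := by gcongr
        _ = (3 * C / L) ^ 2 := by field_simp
  refine ⟨f, hfs, s2_measurable_indicator hFs.continuousOn, fun y => ?_, fun y hy hyL => ?_,
    fun y hy hyL => ?_, fun y hy hyL => ?_, fun x hx y hy => ?_, ?_⟩
  · by_cases hy : y ∈ 𝓜.carrier
    · rw [← hfe hy]
      have := hη01 (ρ y / L ^ 2)
      simp only [hχdef]
      constructor <;> linarith [this.1, this.2]
    · rw [hfdef, Set.indicator_of_notMem hy]; simp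
  · rw [← hfe hy]
    have h5 := abs_le.1 (hρ1 y hy)
    have : ρ y / L ^ 2 ≤ 2 := by
      rw [div_le_iff₀ hL2]
      have : hdist 𝓜 g o y ^ 2 ≤ L ^ 2 := pow_le_pow_left₀ (hr y) hyL 2
      nlinarith
    simp only [hχdef, hη1 _ this]
    linarith
  · rw [← hfe hy]
    have h5 := abs_le.1 (hρ1 y hy)
    have : 3 ≤ ρ y / L ^ 2 := by
      rw [le_div_iff₀ hL2]
      have : (2 * L) ^ 2 ≤ hdist 𝓜 g o y ^ 2 := pow_le_pow_left₀ (by positivity) hyL 2
      nlinarith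
    simp only [hχdef, hη0 _ this]
    linarith
  · rw [← hfe hy]
    have h5 := abs_le.1 (hρ1 y hy)
    have : 3 ≤ ρ y / L ^ 2 := by
      rw [le_div_iff₀ hL2]
      have : (3 * L) ^ 2 ≤ hdist 𝓜 g o y ^ 2 := pow_le_pow_left₀ (by positivity) hyL 2
      nlinarith
    simp only [hχdef, hη0 _ this]
    linarith
  · rw [← hfe hx, ← hfe hy]
    have := abs_sub_le_of_gradSq_le hm I.conn hFs (C := 3 * C / L) (by positivity) hgrad hx hy
    have h0 : 0 ≤ hdist 𝓜 g x y := hdist_nonneg _ _ _ _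
    calc |χ (ρ x) - χ (ρ y)| ≤ 2 * (3 * C / L) * hdist 𝓜 g x y := this
      _ ≤ 11 * C / L * hdist 𝓜 g x y + ε := by
          have : 2 * (3 * C / L) ≤ 11 * C / L := by
            rw [show 2 * (3 * C / L) = 6 * C / L by ring]; gcongr; linarith
          nlinarith
  · rw [leF_iff_qf (isHForm_ddc hfs) (hm.toIsHForm.smulF (CMfd.smooth_const _))]
    intro Φ U hΦ z hz v
    rw [← ddc_congr hfe hΦ hz, s2_qf_ddc_comp χ hρ hΦ hz (hχs.of_le lv_two_le_infty).contDiffAt v,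
      hχ1, hχ2, smulF, qf_smul]
    have hy : Φ z ∈ 𝓜.carrier := CMfd.mem_carrier hΦ hz
    set y := Φ z with hydef
    have hG : 0 ≤ qf (g Φ z) v := qf_nonneg (hm.posDef hΦ z hz).posSemidef v
    have hQ : qf (ddc ρ Φ z) v ≤ 2 * qf (g Φ z) v := by
      have h := qf_mono (hρ2 Φ U hΦ z hz) v
      rw [smulF, qf_smul] at h
      exact h
    have hP0 := s2_qf_gradF_nonneg ρ Φ z v
    have hP1 := s2_qf_gradF_le hm ρ hΦ hz v
    have ha := hηd (ρ y / L ^ 2)
    have ha' := abs_le.1 (hC1 (ρ y / L ^ 2))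
    have hb' := abs_le.1 (hC2 (ρ y / L ^ 2))
    have t1 : -(deriv η (ρ y / L ^ 2) / L ^ 2) * qf (ddc ρ Φ z) v ≤ 2 * C / L ^ 2 * qf (g Φ z) v := by
      have e1 : 0 ≤ -(deriv η (ρ y / L ^ 2) / L ^ 2) := by
        rw [neg_nonneg]; exact div_nonpos_of_nonpos_of_nonneg ha hL2.le
      have e2 : -(deriv η (ρ y / L ^ 2) / L ^ 2) ≤ C / L ^ 2 := by
        rw [← neg_div]; gcongr; linarith [ha'.1]
      calc -(deriv η (ρ y / L ^ 2) / L ^ 2) * qf (ddc ρ Φ z) v
          ≤ -(deriv η (ρ y / L ^ 2) / L ^ 2) * (2 * qf (g Φ z) v) := by gcongr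
        _ ≤ C / L ^ 2 * (2 * qf (g Φ z) v) := by gcongr
        _ = 2 * C / L ^ 2 * qf (g Φ z) v := by ring
    have t2 : -(deriv (deriv η) (ρ y / L ^ 2) / L ^ 4) * qf (gradF ρ Φ z) v
        ≤ 9 * C / L ^ 2 * qf (g Φ z) v := by
      by_cases h3 : 3 < ρ y / L ^ 2
      · rw [(hfar _ h3).2]; simp; positivity
      · push Not at h3
        have h4 : ρ y ≤ 3 * L ^ 2 := by rwa [div_le_iff₀ hL2] at h3
        have h5 := abs_le.1 (hρ1 y hy)
        have h6 : hdist 𝓜 g o y ≤ 2 * L := by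
          have : hdist 𝓜 g o y ^ 2 ≤ (2 * L) ^ 2 := by nlinarith
          exact abs_le_of_sq_le_sq' this (by positivity) |>.2
        have h7 : gradSq 𝓜 g ρ y ≤ (3 * L) ^ 2 :=
          (hρ3 y hy).trans (pow_le_pow_left₀ (by linarith [hr y]) (by linarith) 2)
        have e2 : -(deriv (deriv η) (ρ y / L ^ 2) / L ^ 4) ≤ C / L ^ 4 := by
          rw [← neg_div]; gcongr; linarith [hb'.1]
        calc -(deriv (deriv η) (ρ y / L ^ 2) / L ^ 4) * qf (gradF ρ Φ z) v
            ≤ C / L ^ 4 * qf (gradF ρ Φ z) v := by gcongr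
          _ ≤ C / L ^ 4 * ((3 * L) ^ 2 * qf (g Φ z) v) := by
              gcongr
              exact hP1.trans (by gcongr)
          _ = 9 * C / L ^ 2 * qf (g Φ z) v := by field_simp; ring
    calc _ ≤ 2 * C / L ^ 2 * qf (g Φ z) v + 9 * C / L ^ 2 * qf (g Φ z) v := add_le_add t1 t2
      _ = 11 * C / L ^ 2 * qf (g Φ z) v := by ring

end Claimed.Agent.R316
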