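import Claimed.Agent.R316.S2.Geo
import Claimed.Agent.R316.Pack026_2

/-!
# Row 316, Section 2, leaves `S2-CanGrowth`, `S2-Xi`, `S2-AvgLog`, `S2-AvgR`
ALL PROVED (helper97).  `st2Xi` uses the general position lemma `emb_baire` of `Base/Emb` (helper286): FINITELY many normally convergent series of canonical sections without common zero.
-/

set_option autoImplicit false
open scoped ContDiff ComplexOrder Topology
open MeasureTheory

namespace Claimed.Agent.R316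

variable {V : Type} [NormedAddCommGroup V] [NormedSpace ℝ V] [MeasurableSpace V] [BorelSpace V]
variable [FiniteDimensional ℝ V]
variable {n : ℕ} (𝓜 : CMfd V (Fin n)) (g : HFam V (Fin n)) (o : V)

section tools

variable {𝓜 g}
variable {Φ : CE (Fin n) → V} {U : Set (CE (Fin n))} {z : CE (Fin n)}
variable {S : (CE (Fin n) → V) → CE (Fin n) → ℂ}

theorem s2_smooth_logD (hg : IsMetric 𝓜 g) (hS : IsCanSection 𝓜 S) {δ : ℝ} (hδ : 0 < δ) :
    𝓜.Smooth (fun x => Real.log (canNormSq 𝓜 g S x + δ)) :=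
  ((smooth_canNormSq hg hS).add_const δ).log fun x hx => by
    have := canNormSq_nonneg hg S hx
    positivity

/-- `dd log (|S|² + δ) ≥ |S|²/(|S|² + δ) Ric`. -/
theorem s2_ddc_logD (hg : IsMetric 𝓜 g) (hS : IsCanSection 𝓜 S) {δ : ℝ} (hδ : 0 < δ)
    (hΦ : 𝓜.IsHol Φ U) (hz : z ∈ U) :
    (ddc (fun x => Real.log (canNormSq 𝓜 g S x + δ)) Φ z -
      ((canNormSq 𝓜 g S (Φ z) / (canNormSq 𝓜 g S (Φ z) + δ) : ℝ) : ℂ) • ricF g Φ z).PosSemidef := by
  have hx : Φ z ∈ 𝓜.carrier := CMfd.mem_carrier hΦ hz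
  have hs := smooth_canNormSq hg hS
  have hsδ := hs.add_const δ
  have h0 : 0 ≤ canNormSq 𝓜 g S (Φ z) := canNormSq_nonneg hg S hx
  by_cases hS0 : S Φ z = 0
  · have e0 : canNormSq 𝓜 g S (Φ z) = 0 := (canNormSq_eq_zero_iff hg hS hΦ hz).2 hS0
    rw [e0, zero_div, Complex.ofReal_zero, zero_smul, sub_zero]
    refine levi_posSemidef_of_isLocalMin ((s2_smooth_logD hg hS hδ).contDiffAt_comp_two hΦ hz) ?_
    filter_upwards [(CMfd.isOpen_dom hΦ).mem_nhds hz] with w hw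
    simp only [Function.comp_apply, e0, zero_add]
    exact Real.log_le_log hδ (by linarith [canNormSq_nonneg hg S (CMfd.mem_carrier hΦ hw)])
  · have hne : canNormSq 𝓜 g S (Φ z) ≠ 0 := fun h => hS0 ((canNormSq_eq_zero_iff hg hS hΦ hz).1 h)
    have hpos : 0 < canNormSq 𝓜 g S (Φ z) := lt_of_le_of_ne h0 (Ne.symm hne)
    have e1 := ddc_log_canNormSq hg hS hΦ hz hS0
    rw [ddc_log hs hΦ hz hne] at e1
    have e2 := ddc_log hsδ hΦ hz (by positivity)
    rw [ddc_add_const, gradF_add_const] at e2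
    rw [e2, ← e1]
    set h := canNormSq 𝓜 g S (Φ z) with hh
    have e3 : (((h + δ)⁻¹ : ℝ) : ℂ) • ddc (canNormSq 𝓜 g S) Φ z
        - ((((h + δ) ^ 2)⁻¹ : ℝ) : ℂ) • gradF (canNormSq 𝓜 g S) Φ z
        - ((h / (h + δ) : ℝ) : ℂ) • (((h⁻¹ : ℝ) : ℂ) • ddc (canNormSq 𝓜 g S) Φ z
          - (((h ^ 2)⁻¹ : ℝ) : ℂ) • gradF (canNormSq 𝓜 g S) Φ z)
        = ((δ / (h * (h + δ) ^ 2) : ℝ) : ℂ) • gradF (canNormSq 𝓜 g S) Φ z := by
      have hc : (h : ℂ) ≠ 0 := by exact_mod_cast hne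
      have hc' : (h : ℂ) + δ ≠ 0 := by
        have : h + δ ≠ 0 := by positivity
        exact_mod_cast this
      ext j k
      simp only [Matrix.sub_apply, Matrix.smul_apply, smul_eq_mul]
      push_cast
      field_simp
      ring
    rw [e3]
    exact posSemidef_smul_real (by positivity) (gradF_posSemidef _ _ _)

theorem s2_leF_logD (hg : IsMetric 𝓜 g) (hS : IsCanSection 𝓜 S) {δ : ℝ} (hδ : 0 < δ) :
    leF 𝓜 (smulF (fun x => canNormSq 𝓜 g S x / (canNormSq 𝓜 g S x + δ)) (ricF g))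
      (ddc (fun x => Real.log (canNormSq 𝓜 g S x + δ))) :=
  fun _ _ hΦ _ hz => s2_ddc_logD hg hS hδ hΦ hz

theorem s2_lap_logD_ge (hg : IsMetric 𝓜 g) (hS : IsCanSection 𝓜 S) {δ : ℝ} (hδ : 0 < δ) {x : V}
    (hx : x ∈ 𝓜.carrier) :
    canNormSq 𝓜 g S x / (canNormSq 𝓜 g S x + δ) * scalCurv 𝓜 g x ≤
      lap 𝓜 g (fun x => Real.log (canNormSq 𝓜 g S x + δ)) x := by
  have h := (s2_leF_logD hg hS hδ).tr_le hg hx
  rwa [tr_smulF _ _ _ hx] at h

theorem s2_scalCurv_nonneg (A : AnaSetting 𝓜 g) {x : V} (hx : x ∈ 𝓜.carrier) :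
    0 ≤ scalCurv 𝓜 g x :=
  tr_nonneg A.kahler.toIsMetric A.ric hx

/-- the zero set of `S` is a null set (from the uniform bound of `∫ |log (|S|² + δ)|`). -/
theorem s2_ae_ne_zero (I : InitialData 𝓜 g) {o : V} (ho : o ∈ 𝓜.carrier) (hS : IsCanSection 𝓜 S)
    {R B : ℝ}
    (hB : ∀ δ : ℝ, 0 < δ → δ ≤ 1 →
      ∫ y in hball 𝓜 g o R, |Real.log (canNormSq 𝓜 g S y + δ)| ∂(hvol 𝓜 g) ≤ B) :
    ∀ᵐ y ∂((hvol 𝓜 g).restrict (hball 𝓜 g o R)), canNormSq 𝓜 g S y ≠ 0 := by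
  have hm : IsMetric 𝓜 g := I.kahler.toIsMetric
  set μ := (hvol 𝓜 g).restrict (hball 𝓜 g o R) with hμ
  have hfin : IsFiniteMeasure μ := by
    refine ⟨?_⟩
    rw [hμ, Measure.restrict_apply_univ]
    exact (measure_mono (hball_subset_hcball _ _ _ _)).trans_lt
      (hvol_lt_top_of_isCompact hm (I.proper o ho R) (hcball_subset_carrier _ _ _ _))
  have hi : ∀ δ : ℝ, 0 < δ → Integrable (fun y => |Real.log (canNormSq 𝓜 g S y + δ)|) μ := fun δ hδ =>
    (integrableOn_hvol_of_continuousOn hm (I.proper o ho R) (hcball_subset_carrier _ _ _ _)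
      ((s2_smooth_logD hm hS hδ).continuousOn.abs.mono (hcball_subset_carrier _ _ _ _))).mono_set
      (hball_subset_hcball _ _ _ _)
  have key : ∀ m : ℕ, ((m : ℝ) + 1) * μ.real {y | canNormSq 𝓜 g S y = 0} ≤ B := by
    intro m
    have hδ : 0 < Real.exp (-((m : ℝ) + 1)) := Real.exp_pos _
    have hδ1 : Real.exp (-((m : ℝ) + 1)) ≤ 1 := Real.exp_le_one_iff.2 (by
      have : (0 : ℝ) ≤ m := Nat.cast_nonneg m
      linarith)
    have h1 := mul_meas_ge_le_integral_of_nonneg (μ := μ)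
      (Filter.Eventually.of_forall fun y => abs_nonneg (Real.log (canNormSq 𝓜 g S y + Real.exp (-((m : ℝ) + 1)))))
      (hi _ hδ) ((m : ℝ) + 1)
    have h2 : μ.real {y | canNormSq 𝓜 g S y = 0} ≤
        μ.real {y | (m : ℝ) + 1 ≤ |Real.log (canNormSq 𝓜 g S y + Real.exp (-((m : ℝ) + 1)))|} := by
      refine measureReal_mono (fun y hy => ?_) (measure_ne_top _ _)
      have hy' : canNormSq 𝓜 g S y = 0 := hy
      simp only [Set.mem_ofPred_eq, hy', zero_add, Real.log_exp, abs_neg]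
      exact le_abs_self _
    have h3 : (0 : ℝ) ≤ (m : ℝ) + 1 := by positivity
    calc ((m : ℝ) + 1) * μ.real {y | canNormSq 𝓜 g S y = 0} ≤ _ := by gcongr
      _ ≤ _ := h1
      _ ≤ B := hB _ hδ hδ1
  have hz : μ.real {y | canNormSq 𝓜 g S y = 0} = 0 := by
    by_contra hne
    have hp : 0 < μ.real {y | canNormSq 𝓜 g S y = 0} := lt_of_le_of_ne measureReal_nonneg (Ne.symm hne)
    obtain ⟨m, hmm⟩ := exists_nat_gt (B / μ.real {y | canNormSq 𝓜 g S y = 0})
    rw [div_lt_iff₀ hp] at hmm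
    have := key m
    nlinarith
  rw [measureReal_eq_zero_iff] at hz
  exact measure_eq_zero_iff_ae_notMem.1 hz

theorem s2_young {a ε : ℝ} (hε : 0 < ε) (r : ℝ) : a * r ≤ ε * r ^ 2 + a ^ 2 / (4 * ε) := by
  have e : ε * r ^ 2 + a ^ 2 / (4 * ε) - a * r = (2 * ε * r - a) ^ 2 / (4 * ε) := by
    field_simp; ring
  have : 0 ≤ (2 * ε * r - a) ^ 2 / (4 * ε) := by positivity
  linarith

/-- `|S|²` is plurisubharmonic if `Ric ≥ 0`. -/
theorem s2_ddc_canNormSq_nonneg (A : AnaSetting 𝓜 g) (hS : IsCanSection 𝓜 S) :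
    leF 𝓜 (fun _ _ => 0) (ddc (canNormSq 𝓜 g S)) := by
  have hg : IsMetric 𝓜 g := A.kahler.toIsMetric
  have hs := smooth_canNormSq hg hS
  refine leF_zero_iff.2 fun Φ U hΦ z hz => ?_
  have hx : Φ z ∈ 𝓜.carrier := CMfd.mem_carrier hΦ hz
  have h0 : 0 ≤ canNormSq 𝓜 g S (Φ z) := canNormSq_nonneg hg S hx
  by_cases hS0 : S Φ z = 0
  · have e0 : canNormSq 𝓜 g S (Φ z) = 0 := (canNormSq_eq_zero_iff hg hS hΦ hz).2 hS0
    refine levi_posSemidef_of_isLocalMin (hs.contDiffAt_comp_two hΦ hz) ?_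
    filter_upwards [(CMfd.isOpen_dom hΦ).mem_nhds hz] with w hw
    simp only [Function.comp_apply, e0]
    exact canNormSq_nonneg hg S (CMfd.mem_carrier hΦ hw)
  · have hne : canNormSq 𝓜 g S (Φ z) ≠ 0 := fun h => hS0 ((canNormSq_eq_zero_iff hg hS hΦ hz).1 h)
    have hpos : 0 < canNormSq 𝓜 g S (Φ z) := lt_of_le_of_ne h0 (Ne.symm hne)
    have e1 := ddc_log_canNormSq hg hS hΦ hz hS0
    rw [ddc_log hs hΦ hz hne] at e1
    set h := canNormSq 𝓜 g S (Φ z) with hh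
    have e3 : ddc (canNormSq 𝓜 g S) Φ z = ((h : ℝ) : ℂ) • ricF g Φ z
        + ((h⁻¹ : ℝ) : ℂ) • gradF (canNormSq 𝓜 g S) Φ z := by
      have hc : (h : ℂ) ≠ 0 := by exact_mod_cast hne
      rw [← e1]
      ext j k
      simp only [Matrix.sub_apply, Matrix.add_apply, Matrix.smul_apply, smul_eq_mul]
      push_cast
      field_simp
      ring
    rw [e3]
    have hric : (ricF g Φ z).PosSemidef := by simpa using A.ric Φ U hΦ z hz
    exact (posSemidef_smul_real hpos.le hric).add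
      (posSemidef_smul_real (by positivity) (gradF_posSemidef _ _ _))

end tools

/-! ### leaf `S2-CanGrowth` -/

set_option maxHeartbeats 1000000 in
theorem st2CanGrowth : St2CanGrowth 𝓜 g o := by
  intro I ho DC HD hSub ψ S k hψs hk hψg hS hint
  obtain ⟨C, hC⟩ := hψg
  have A := anaSetting_of_initialData I
  have hm : IsMetric 𝓜 g := I.kahler.toIsMetric
  obtain ⟨Cu, c, hc, hup⟩ := HD.upper
  obtain ⟨Cv, hCv⟩ := HD.Vb_le_Vb A
  set h := canNormSq 𝓜 g S with hhdef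
  have hhs : 𝓜.Smooth h := smooth_canNormSq hm hS
  have hh0 : ∀ y ∈ 𝓜.carrier, 0 ≤ h y := fun y hy => canNormSq_nonneg hm S hy
  set r : V → ℝ := fun y => hdist 𝓜 g o y with hrdef
  have hr0 : ∀ y, 0 ≤ r y := fun y => hdist_nonneg _ _ _ _
  set a := k * max C 0 with hadef
  have ha : 0 ≤ a := mul_nonneg hk (le_max_right _ _)
  have hψa : ∀ y ∈ 𝓜.carrier, k * ψ y ≤ a * (1 + r y) := by
    intro y hy
    have h1 : ψ y ≤ max C 0 * (1 + r y) := (hC y hy).trans (by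
      have := hr0 y
      gcongr
      exact le_max_left _ _)
    calc k * ψ y ≤ k * (max C 0 * (1 + r y)) := by gcongr
      _ = _ := by ring
  set J := ∫ y, h y * Real.exp (-(k * ψ y)) ∂(hvol 𝓜 g) with hJ
  have hJ0 : 0 ≤ J := integral_hvol_nonneg fun y hy => mul_nonneg (hh0 y hy) (Real.exp_pos _).le
  have hG : SubGauss 𝓜 g o h := by
    intro ε hε
    refine (hint.const_mul (Real.exp (a + a ^ 2 / (4 * ε)))).mono'
      (hhs.aestronglyMeasurable.mul
        (((measurable_hdist_right hm I.conn o).pow_const 2).const_mul ε).neg.exp.aestronglyMeasurable)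
      (ae_hvol_of_forall_mem fun y hy => ?_)
    rw [Real.norm_eq_abs, abs_of_nonneg (mul_nonneg (hh0 y hy) (Real.exp_pos _).le)]
    have e1 : Real.exp (-(ε * hdist 𝓜 g o y ^ 2)) ≤
        Real.exp (a + a ^ 2 / (4 * ε)) * Real.exp (-(k * ψ y)) := by
      rw [← Real.exp_add]
      apply Real.exp_le_exp.2
      have h1 := s2_young (a := a) hε (r y)
      have h2 := hψa y hy
      show -(ε * r y ^ 2) ≤ _
      linarith
    calc h y * Real.exp (-(ε * hdist 𝓜 g o y ^ 2))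
        ≤ h y * (Real.exp (a + a ^ 2 / (4 * ε)) * Real.exp (-(k * ψ y))) := by
          gcongr; exact hh0 y hy
      _ = _ := by ring
  have hlap : ∀ y ∈ 𝓜.carrier, 0 ≤ lap 𝓜 g h y := fun y hy =>
    lap_nonneg hm (s2_ddc_canNormSq_nonneg A hS) hy
  have hVo : 0 < Vb 𝓜 g o 1 := HD.vol.pos o ho 1 one_pos
  set Q := |Cu| * |Cv| / Vb 𝓜 g o 1 * Real.exp (a ^ 2 / (4 * c)) * J with hQ
  have hQ0 : 0 ≤ Q := by positivity
  refine ⟨Q + 2 * n + a, fun x hx => ?_⟩
  have hVx : 0 < Vb 𝓜 g x 1 := HD.vol.pos x hx 1 one_pos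
  have hsub : h x ≤ HD.P 1 h x := hSub I ho DC h hhs hlap hG 1 one_pos x hx
  have hP : HD.P 1 h x ≤ |Cu| / Vb 𝓜 g x 1 * Real.exp (a * (1 + r x) + a ^ 2 / (4 * c)) * J := by
    rw [hJ, ← integral_const_mul]
    refine integral_hvol_mono (HD.integrable_Hk_mul A ho hG one_pos hx) (hint.const_mul _)
      fun y hy => ?_
    have h1 := hup 1 one_pos x hx y hy
    rw [Real.sqrt_one, div_one] at h1
    have h2 : Cu / Vb 𝓜 g x 1 ≤ |Cu| / Vb 𝓜 g x 1 := by gcongr; exact le_abs_self _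
    have h3 : Real.exp (-(c * hdist 𝓜 g x y ^ 2)) ≤
        Real.exp (a * (1 + r x) + a ^ 2 / (4 * c)) * Real.exp (-(k * ψ y)) := by
      rw [← Real.exp_add]
      apply Real.exp_le_exp.2
      have e1 := s2_young (a := a) hc (hdist 𝓜 g x y)
      have e2 := hψa y hy
      have e3 : r y ≤ r x + hdist 𝓜 g x y := hdist_triangle hm I.conn ho hx hy
      have e4 : a * (1 + r y) ≤ a * (1 + (r x + hdist 𝓜 g x y)) := by gcongr
      linarith
    calc HD.Hk 1 x y * h y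
        ≤ (|Cu| / Vb 𝓜 g x 1 * (Real.exp (a * (1 + r x) + a ^ 2 / (4 * c)) * Real.exp (-(k * ψ y))))
            * h y := by
          gcongr
          · exact hh0 y hy
          · exact h1.trans (by gcongr)
      _ = _ := by ring
  have hV : 1 / Vb 𝓜 g x 1 ≤ |Cv| * (1 + r x) ^ (2 * n) / Vb 𝓜 g o 1 := by
    have h1 := hCv o ho x hx 1 one_pos
    rw [div_one] at h1
    have h2 : Vb 𝓜 g o 1 ≤ |Cv| * (1 + r x) ^ (2 * n) * Vb 𝓜 g x 1 := h1.trans (by
      have := hr0 x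
      gcongr
      exact le_abs_self _)
    rw [div_le_div_iff₀ hVx hVo]
    linarith
  have hpow : (1 + r x) ^ (2 * n) ≤ Real.exp (2 * n * (1 + r x)) := by
    have h1 : 1 + r x ≤ Real.exp (1 + r x) := by
      have := Real.add_one_le_exp (1 + r x); linarith
    calc (1 + r x) ^ (2 * n) ≤ Real.exp (1 + r x) ^ (2 * n) :=
          pow_le_pow_left₀ (by have := hr0 x; positivity) h1 _
      _ = Real.exp (2 * n * (1 + r x)) := by
          rw [← Real.exp_nat_mul]; push_cast; ring_nf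
  have hQe : Q ≤ Real.exp (Q * (1 + r x)) := by
    have h1 : Q + 1 ≤ Real.exp Q := Real.add_one_le_exp Q
    have h2 : Real.exp Q ≤ Real.exp (Q * (1 + r x)) := Real.exp_le_exp.2 (by
      have := mul_nonneg hQ0 (hr0 x); linarith)
    linarith
  calc h x ≤ |Cu| / Vb 𝓜 g x 1 * Real.exp (a * (1 + r x) + a ^ 2 / (4 * c)) * J := hsub.trans hP
    _ = |Cu| * (1 / Vb 𝓜 g x 1) * Real.exp (a * (1 + r x) + a ^ 2 / (4 * c)) * J := by ring
    _ ≤ |Cu| * (|Cv| * (1 + r x) ^ (2 * n) / Vb 𝓜 g o 1) *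
          Real.exp (a * (1 + r x) + a ^ 2 / (4 * c)) * J := by gcongr
    _ = Q * (1 + r x) ^ (2 * n) * Real.exp (a * (1 + r x)) := by
        rw [hQ, Real.exp_add]; ring
    _ ≤ Real.exp (Q * (1 + r x)) * Real.exp (2 * n * (1 + r x)) * Real.exp (a * (1 + r x)) := by
        have := hr0 x
        gcongr
    _ = Real.exp ((Q + 2 * n + a) * (1 + hdist 𝓜 g o x)) := by
        rw [← Real.exp_add, ← Real.exp_add]; congr 1; ring

/-! ### leaf `S2-Xi` -/

theorem s2_rpow_three_half {r : ℝ} (hr : 0 ≤ r) : r ^ (3 / 2 : ℝ) = r * Real.sqrt r := by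
  rw [Real.sqrt_eq_rpow, ← Real.rpow_one_add' hr (by norm_num)]
  norm_num

theorem s2_young32 {a r : ℝ} (ha : 0 ≤ a) (hr : 0 ≤ r) : a * r ≤ a ^ 3 + r ^ (3 / 2 : ℝ) := by
  rw [s2_rpow_three_half hr]
  by_cases h : a ^ 2 ≤ r
  · have h1 : a ≤ Real.sqrt r := Real.le_sqrt_of_sq_le h
    have : a * r ≤ Real.sqrt r * r := by gcongr
    have h3 : 0 ≤ a ^ 3 := by positivity
    linarith
  · push Not at h
    have : a * r ≤ a * a ^ 2 := by gcongr
    have h3 : 0 ≤ r * Real.sqrt r := by positivity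
    nlinarith

variable {𝓜 g o} in
/-- Lindelöf: countably many canonical sections with growth and without common zero. -/
theorem s2_exists_seq (I : InitialData 𝓜 g) (ho : o ∈ 𝓜.carrier)
    (H : ∀ x ∈ 𝓜.carrier, ∃ S : (CE (Fin n) → V) → CE (Fin n) → ℂ, IsCanSection 𝓜 S ∧
      0 < canNormSq 𝓜 g S x ∧ CanGrowth 𝓜 g o S) :
    ∃ S : ℕ → (CE (Fin n) → V) → CE (Fin n) → ℂ, (∀ k, IsCanSection 𝓜 (S k)) ∧
      (∀ k, CanGrowth 𝓜 g o (S k)) ∧ ∀ x ∈ 𝓜.carrier, ∃ k, 0 < canNormSq 𝓜 g (S k) x := by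
  have hm : IsMetric 𝓜 g := I.kahler.toIsMetric
  obtain ⟨A⟩ := emb_exists_atlas (𝓜 := 𝓜) I.conn.nonempty
  let 𝒯 := {S : (CE (Fin n) → V) → CE (Fin n) → ℂ // IsCanSection 𝓜 S ∧ CanGrowth 𝓜 g o S}
  have key : ∀ i : ℕ, ∃ T : Set 𝒯, T.Countable ∧
      ⋃ S ∈ T, {z | z ∈ A.D i ∧ S.1 (A.Φ i) z ≠ 0} = ⋃ S : 𝒯, {z | z ∈ A.D i ∧ S.1 (A.Φ i) z ≠ 0} := by
    intro i
    refine TopologicalSpace.isOpen_iUnion_countable _ fun S => ?_
    exact (S.2.1.hol (A.hol i)).continuousOn.isOpen_inter_preimage (A.isOpen_D i) isOpen_ne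
  choose T hTc hT using key
  obtain ⟨S₀, hS₀, -, hG₀⟩ := H o ho
  have hcount : ((⋃ i, T i) ∪ {⟨S₀, hS₀, hG₀⟩} : Set 𝒯).Countable :=
    (Set.countable_iUnion hTc).union (Set.countable_singleton _)
  obtain ⟨f, hf⟩ := hcount.exists_eq_range ⟨_, Or.inr rfl⟩
  refine ⟨fun k => (f k).1, fun k => (f k).2.1, fun k => (f k).2.2, fun x hx => ?_⟩
  obtain ⟨i, z, hz, rfl⟩ := A.exists_eq hx
  obtain ⟨S, hS, hpos, hG⟩ := H _ hx
  have h1 : z ∈ ⋃ S : 𝒯, {z | z ∈ A.D i ∧ S.1 (A.Φ i) z ≠ 0} := by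
    refine Set.mem_iUnion.2 ⟨⟨S, hS, hG⟩, hz, fun h0 => ?_⟩
    rw [(canNormSq_eq_zero_iff hm hS (A.hol i) hz).2 h0] at hpos
    exact lt_irrefl _ hpos
  rw [← hT i] at h1
  obtain ⟨S', hS', -, hne⟩ := Set.mem_iUnion₂.1 h1
  have h2 : S' ∈ Set.range f := by
    rw [← hf]; exact Or.inl (Set.mem_iUnion.2 ⟨i, hS'⟩)
  obtain ⟨k, rfl⟩ := h2
  refine ⟨k, lt_of_le_of_ne (canNormSq_nonneg hm _ hx) fun h0 => hne ?_⟩
  exact (canNormSq_eq_zero_iff hm (f k).2.1 (A.hol i) hz).1 h0.symm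

variable {𝓜 g} in
theorem s2_norm_can_eq (hm : IsMetric 𝓜 g) {S : (CE (Fin n) → V) → CE (Fin n) → ℂ}
    (hS : IsCanSection 𝓜 S) {Φ : CE (Fin n) → V} {U : Set (CE (Fin n))} (hΦ : 𝓜.IsHol Φ U)
    {z : CE (Fin n)} (hz : z ∈ U) :
    ‖S Φ z‖ = Real.sqrt (canNormSq 𝓜 g S (Φ z)) * Real.sqrt (g Φ z).det.re := by
  have hd : 0 < (g Φ z).det.re := det_re_pos_of_posDef (hm.posDef hΦ z hz)
  rw [canNormSq_eq hm hS hΦ hz, ← Real.sqrt_mul (by positivity), div_mul_cancel₀ _ hd.ne',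
    Real.sqrt_sq (norm_nonneg _)]

variable {𝓜 g} in
/-- normally convergent series of canonical sections. -/
theorem s2_isCanSection_tsum (hm : IsMetric 𝓜 g) {S : ℕ → (CE (Fin n) → V) → CE (Fin n) → ℂ}
    (hS : ∀ k, IsCanSection 𝓜 (S k)) {b : ℕ → ℂ} {u : ℕ → ℝ} (hu : Summable u)
    {E : V → ℝ} (hE : ContinuousOn E 𝓜.carrier)
    (hb : ∀ k, ∀ x ∈ 𝓜.carrier, ‖b k‖ * Real.sqrt (canNormSq 𝓜 g (S k) x) ≤ u k * E x) :
    IsCanSection 𝓜 (fun Φ z => ∑' k, b k * S k Φ z) ∧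
      (∀ x ∈ 𝓜.carrier, canNormSq 𝓜 g (fun Φ z => ∑' k, b k * S k Φ z) x ≤ ((∑' k, u k) * E x) ^ 2) ∧
      ∀ {Φ : CE (Fin n) → V} {U : Set (CE (Fin n))}, 𝓜.IsHol Φ U →
        EmbLocSummable (fun k z => b k * S k Φ z) U := by
  have hterm : ∀ {Φ : CE (Fin n) → V} {U : Set (CE (Fin n))}, 𝓜.IsHol Φ U → ∀ z ∈ U, ∀ k,
      ‖b k * S k Φ z‖ ≤ u k * (E (Φ z) * Real.sqrt (g Φ z).det.re) := by
    intro Φ U hΦ z hz k
    rw [norm_mul, s2_norm_can_eq hm (hS k) hΦ hz, ← mul_assoc, ← mul_assoc]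
    exact mul_le_mul_of_nonneg_right (hb k _ (CMfd.mem_carrier hΦ hz)) (Real.sqrt_nonneg _)
  have hloc : ∀ {Φ : CE (Fin n) → V} {U : Set (CE (Fin n))}, 𝓜.IsHol Φ U →
      EmbLocSummable (fun k z => b k * S k Φ z) U := by
    intro Φ U hΦ p hp
    have hc : ContinuousOn (fun z => E (Φ z) * Real.sqrt (g Φ z).det.re) U :=
      (hE.comp (𝓜.isParam hΦ).continuousOn fun z hz => CMfd.mem_carrier hΦ hz).mul
        (contDiffOn_det_re (N := ∞) (fun j k => hm.smooth hΦ j k)).continuousOn.sqrt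
    have hU := (CMfd.isOpen_dom hΦ).mem_nhds hp
    have h1 : ∀ᶠ z in 𝓝 p, |E (Φ z) * Real.sqrt (g Φ z).det.re| <
        |E (Φ p) * Real.sqrt (g Φ p).det.re| + 1 :=
      (hc.continuousAt hU).abs.eventually (_root_.gt_mem_nhds (by linarith))
    refine ⟨_, Filter.inter_mem h1 hU, fun k => |u k| * (|E (Φ p) * Real.sqrt (g Φ p).det.re| + 1),
      hu.abs.mul_right _, fun k q hq => ?_⟩
    refine (hterm hΦ q hq.2 k).trans ?_
    calc u k * (E (Φ q) * Real.sqrt (g Φ q).det.re)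
        ≤ |u k| * |E (Φ q) * Real.sqrt (g Φ q).det.re| := by
          rw [← abs_mul]; exact le_abs_self _
      _ ≤ _ := mul_le_mul_of_nonneg_left (show |E (Φ q) * Real.sqrt (g Φ q).det.re| <
            |E (Φ p) * Real.sqrt (g Φ p).det.re| + 1 from hq.1).le (abs_nonneg _)
  have hcan : IsCanSection 𝓜 (fun Φ z => ∑' k, b k * S k Φ z) := by
    refine ⟨fun {Φ U} hΦ => emb_differentiableOn_tsum (CMfd.isOpen_dom hΦ)
      (fun k => ((hS k).hol hΦ).const_mul _) (hloc hΦ), fun {Φ Ψ U W} hΦ hΨ z hz hz' => ?_⟩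
    show ∑' k, b k * S k Φ z = _ * ∑' k, b k * S k Ψ _
    rw [← tsum_mul_left]
    refine tsum_congr fun k => ?_
    rw [(hS k).compat hΦ hΨ z hz hz']
    ring
  refine ⟨hcan, fun x hx => ?_, hloc⟩
  have hΦ := 𝓜.isHol_pΦ hx
  have hz := 𝓜.co_mem hx
  have hd : 0 < (g (𝓜.pΦ x) (𝓜.co x)).det.re := det_re_pos_of_posDef (hm.posDef hΦ _ hz)
  have e := canNormSq_eq hm hcan hΦ hz
  rw [𝓜.pΦ_co hx] at e
  rw [e, div_le_iff₀ hd]
  have hsn : Summable fun k => ‖b k * S k (𝓜.pΦ x) (𝓜.co x)‖ := (hloc hΦ).summable_norm hz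
  have h1 : ‖∑' k, b k * S k (𝓜.pΦ x) (𝓜.co x)‖ ≤
      (∑' k, u k) * (E x * Real.sqrt (g (𝓜.pΦ x) (𝓜.co x)).det.re) := by
    rw [← tsum_mul_right]
    refine (norm_tsum_le_tsum_norm hsn).trans (hsn.tsum_le_tsum (fun k => ?_) (hu.mul_right _))
    have := hterm hΦ _ hz k
    rwa [𝓜.pΦ_co hx] at this
  calc ‖∑' k, b k * S k (𝓜.pΦ x) (𝓜.co x)‖ ^ 2
      ≤ ((∑' k, u k) * (E x * Real.sqrt (g (𝓜.pΦ x) (𝓜.co x)).det.re)) ^ 2 :=
        pow_le_pow_left₀ (norm_nonneg _) h1 2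
    _ = ((∑' k, u k) * E x) ^ 2 * Real.sqrt (g (𝓜.pΦ x) (𝓜.co x)).det.re ^ 2 := by ring
    _ = _ := by rw [Real.sq_sqrt hd.le]

set_option maxHeartbeats 1000000 in
theorem st2Xi : St2Xi 𝓜 g o := by
  intro I ho H
  have hm : IsMetric 𝓜 g := I.kahler.toIsMetric
  obtain ⟨S, hS, hG, hne⟩ := s2_exists_seq I ho H
  choose C hC using hG
  set a : ℕ → ℝ := fun k => max (C k) 0 with hadef
  have ha0 : ∀ k, 0 ≤ a k := fun k => le_max_right _ _
  set e : ℕ → ℝ := fun k => Real.exp (a k + a k ^ 3) with hedef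
  obtain ⟨w, hw0, hws⟩ := emb_exists_weights (fun k _ => e k) (fun k _ => (Real.exp_pos _).le)
  have hu : Summable (fun k => w k * e k) := hws 0
  set W := ∑' k, w k * e k with hW
  set r : V → ℝ := fun y => hdist 𝓜 g o y with hrdef
  have hr0 : ∀ y, 0 ≤ r y := fun y => hdist_nonneg _ _ _ _
  set E : V → ℝ := fun y => Real.exp (r y ^ (3 / 2 : ℝ)) with hEdef
  have hE : ContinuousOn E 𝓜.carrier :=
    ((continuousOn_hdist_right hm I.conn ho).rpow_const fun x _ => Or.inr (by norm_num)).rexp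
  have hsq : ∀ k, ∀ x ∈ 𝓜.carrier, Real.sqrt (canNormSq 𝓜 g (S k) x) ≤ e k * E x := by
    intro k x hx
    refine Real.sqrt_le_iff.2 ⟨by positivity, (hC k x hx).trans ?_⟩
    rw [hedef, hEdef]
    simp only
    rw [← Real.exp_add, sq, ← Real.exp_add]
    apply Real.exp_le_exp.2
    have h1 : C k * (1 + r x) ≤ a k * (1 + r x) := by
      have := hr0 x
      gcongr
      exact le_max_left _ _
    have h2 := s2_young32 (ha0 k) (hr0 x)
    have h3 : 0 ≤ a k + a k ^ 3 + r x ^ (3 / 2 : ℝ) := by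
      have := ha0 k
      have := Real.rpow_nonneg (hr0 x) (3 / 2 : ℝ)
      positivity
    show C k * (1 + r x) ≤ _
    nlinarith
  obtain ⟨A⟩ := emb_exists_atlas (𝓜 := 𝓜) I.conn.nonempty
  have hd : Module.finrank ℝ (CE (Fin n)) < 2 * n + 1 := by
    rw [finrank_real_of_complex, finrank_euclideanSpace_fin]
    omega
  have hb0 : ∀ k, ∀ x ∈ 𝓜.carrier, ‖((w k : ℝ) : ℂ)‖ * Real.sqrt (canNormSq 𝓜 g (S k) x) ≤
      w k * e k * E x := by
    intro k x hx
    rw [Complex.norm_real, Real.norm_eq_abs, abs_of_pos (hw0 k), mul_assoc]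
    exact mul_le_mul_of_nonneg_left (hsq k x hx) (hw0 k).le
  obtain ⟨α, hα1, hα⟩ := emb_baire hd (fun i => A.D i)
    (fun i k z => ((w k : ℝ) : ℂ) * S k (A.Φ i) z) (fun i => A.isOpen_D i)
    (fun i k => ((hS k).hol (A.hol i)).const_mul _)
    (fun i => (s2_isCanSection_tsum hm hS hu hE hb0).2.2 (A.hol i))
    (fun i p hp => by
      obtain ⟨k, hk⟩ := hne _ (CMfd.mem_carrier (A.hol i) hp)
      refine ⟨k, mul_ne_zero (by exact_mod_cast (hw0 k).ne') fun h0 => ?_⟩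
      rw [(canNormSq_eq_zero_iff hm (hS k) (A.hol i) hp).2 h0] at hk
      exact lt_irrefl _ hk)
  set T : Fin (2 * n + 1) → (CE (Fin n) → V) → CE (Fin n) → ℂ :=
    fun l Φ z => ∑' k, ((w k * α k l : ℝ) : ℂ) * S k Φ z with hTdef
  have hb : ∀ l k, ∀ x ∈ 𝓜.carrier, ‖((w k * α k l : ℝ) : ℂ)‖ * Real.sqrt (canNormSq 𝓜 g (S k) x) ≤
      w k * e k * E x := by
    intro l k x hx
    refine le_trans ?_ (hb0 k x hx)
    gcongr
    rw [Complex.norm_real, Complex.norm_real, Real.norm_eq_abs, Real.norm_eq_abs, abs_mul]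
    have := hα1 k l
    have := abs_nonneg (w k)
    nlinarith
  have hT : ∀ l, IsCanSection 𝓜 (T l) := fun l => (s2_isCanSection_tsum hm hS hu hE (hb l)).1
  have hTb : ∀ l, ∀ x ∈ 𝓜.carrier, canNormSq 𝓜 g (T l) x ≤ (W * E x) ^ 2 := fun l =>
    (s2_isCanSection_tsum hm hS hu hE (hb l)).2.1
  have hTne : ∀ x ∈ 𝓜.carrier, ∃ l, 0 < canNormSq 𝓜 g (T l) x := by
    intro x hx
    obtain ⟨i, p, hp, rfl⟩ := A.exists_eq hx
    obtain ⟨l, hl⟩ := hα i p hp
    refine ⟨l, lt_of_le_of_ne (canNormSq_nonneg hm _ hx) fun h0 => hl ?_⟩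
    have h1 := (canNormSq_eq_zero_iff hm (hT l) (A.hol i) hp).1 h0.symm
    rw [← h1]
    refine tsum_congr fun k => ?_
    push_cast
    ring
  set F : V → ℝ := fun x => ∑ l, canNormSq 𝓜 g (T l) x with hFdef
  have hFs : 𝓜.Smooth F := CMfd.Smooth.sum _ fun l _ => smooth_canNormSq hm (hT l)
  have hFpos : ∀ x ∈ 𝓜.carrier, 0 < F x := by
    intro x hx
    obtain ⟨l, hl⟩ := hTne x hx
    exact Finset.sum_pos' (fun l _ => canNormSq_nonneg hm _ hx) ⟨l, Finset.mem_univ _, hl⟩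
  set M : ℝ := (2 * n + 1 : ℕ) * W ^ 2 with hM
  have hM0 : 0 ≤ M := by positivity
  refine ⟨fun x => Real.log (F x), hFs.log fun x hx => (hFpos x hx).ne', fun Φ U hΦ z hz => ?_,
    Real.log (M + 1) + 2, fun y hy => ?_⟩
  · obtain ⟨l, hl⟩ := hTne _ (CMfd.mem_carrier hΦ hz)
    refine ricF_le_ddc_log_sum_canNormSq Finset.univ hm (fun l _ => hT l) hΦ hz
      ⟨l, Finset.mem_univ _, fun h0 => ?_⟩
    rw [(canNormSq_eq_zero_iff hm (hT l) hΦ hz).2 h0] at hl
    exact lt_irrefl _ hl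
  · have h1 : F y ≤ (M + 1) * E y ^ 2 := by
      calc F y ≤ ∑ _l : Fin (2 * n + 1), (W * E y) ^ 2 := Finset.sum_le_sum fun l _ => hTb l y hy
        _ = M * E y ^ 2 := by
            rw [Finset.sum_const, Finset.card_univ, Fintype.card_fin, nsmul_eq_mul, hM]; ring
        _ ≤ (M + 1) * E y ^ 2 := by
            have : 0 ≤ E y ^ 2 := by positivity
            nlinarith
    have h2 : Real.log (F y) ≤ Real.log (M + 1) + 2 * r y ^ (3 / 2 : ℝ) := by
      refine (Real.log_le_log (hFpos y hy) h1).trans (le_of_eq ?_)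
      rw [Real.log_mul (by positivity) (by positivity), Real.log_pow, hEdef]
      simp only [Real.log_exp]
      norm_num
    have h3 : 0 ≤ Real.log (M + 1) := Real.log_nonneg (by linarith)
    have h4 : 0 ≤ r y ^ (3 / 2 : ℝ) := Real.rpow_nonneg (hr0 y) _
    show Real.log (F y) ≤ (Real.log (M + 1) + 2) * (1 + r y ^ (3 / 2 : ℝ))
    nlinarith


/-! ### leaf `S2-AvgLog` -/

set_option maxHeartbeats 1000000 in
theorem st2AvgLogD : St2AvgLogD 𝓜 g o := by
  intro I ho DC HD hSub hMom S hS hpos hgr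
  obtain ⟨C₀, hC₀⟩ := hgr
  have A := anaSetting_of_initialData I
  have hm : IsMetric 𝓜 g := I.kahler.toIsMetric
  obtain ⟨C₁, hC₁⟩ := hMom I
  obtain ⟨c, hc, hlow⟩ := HD.lower 1 one_pos
  set h := canNormSq 𝓜 g S with hhdef
  set r : V → ℝ := fun y => hdist 𝓜 g o y with hrdef
  have hr0 : ∀ y, 0 ≤ r y := fun y => hdist_nonneg _ _ _ _
  have hh0 : ∀ y ∈ 𝓜.carrier, 0 ≤ h y := fun y hy => canNormSq_nonneg hm S hy
  set B₀ := max C₀ 0 with hB₀
  set B₁ := max C₁ 0 with hB₁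
  have hB₀0 : 0 ≤ B₀ := le_max_right _ _
  have hB₁0 : 0 ≤ B₁ := le_max_right _ _
  set K := 2 * (B₀ + 1 + B₀ * B₁) + |Real.log (h o)| with hK
  have hK0 : 0 ≤ K := by positivity
  refine ⟨K / c, fun L hL δ hδ hδ1 => ?_⟩
  have hL0 : 0 < L := by linarith
  set w : V → ℝ := fun y => Real.log (h y + δ) with hwdef
  have hws : 𝓜.Smooth w := s2_smooth_logD hm hS hδ
  have hwup : ∀ y ∈ 𝓜.carrier, w y ≤ B₀ * (1 + r y) + 1 := by
    intro y hy
    have a1 : h y ≤ Real.exp (C₀ * (1 + r y)) := hC₀ y hy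
    have a2 : Real.exp (C₀ * (1 + r y)) ≤ Real.exp (B₀ * (1 + r y)) := by
      apply Real.exp_le_exp.2
      have := hr0 y
      gcongr
      exact le_max_left _ _
    have a3 : 1 ≤ Real.exp (B₀ * (1 + r y)) := Real.one_le_exp (by have := hr0 y; positivity)
    have a4 : h y + δ ≤ 2 * Real.exp (B₀ * (1 + r y)) := by linarith
    calc w y ≤ Real.log (2 * Real.exp (B₀ * (1 + r y))) :=
          Real.log_le_log (by have := hh0 y hy; positivity) a4
      _ = Real.log 2 + B₀ * (1 + r y) := by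
          rw [Real.log_mul (by norm_num) (Real.exp_pos _).ne', Real.log_exp]
      _ ≤ B₀ * (1 + r y) + 1 := by have := Real.log_two_lt_d9; linarith
  have hwlow : ∀ y ∈ 𝓜.carrier, Real.log δ ≤ w y := fun y hy =>
    Real.log_le_log hδ (by linarith [hh0 y hy])
  set A₀ := B₀ + 1 + |Real.log δ| with hA₀
  have hA₀1 : 1 ≤ A₀ := by have := abs_nonneg (Real.log δ); linarith
  have hgrow : ∀ y ∈ 𝓜.carrier, |w y| ≤ A₀ * Real.exp (A₀ * r y) := by
    intro y hy
    have a1 := hwup y hy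
    have a2 := hwlow y hy
    have a3 := neg_abs_le (Real.log δ)
    have a4 : A₀ * r y + 1 ≤ Real.exp (A₀ * r y) := Real.add_one_le_exp _
    have a5 : |w y| ≤ A₀ + B₀ * r y := by
      rw [abs_le]; constructor
      · have := mul_nonneg hB₀0 (hr0 y); linarith
      · have := abs_nonneg (Real.log δ); linarith
    have a6 : B₀ * r y ≤ A₀ * (A₀ * r y) := by
      have : B₀ ≤ A₀ * A₀ := by have := abs_nonneg (Real.log δ); nlinarith
      calc B₀ * r y ≤ A₀ * A₀ * r y := by gcongr; exact hr0 y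
        _ = _ := by ring
    calc |w y| ≤ A₀ + B₀ * r y := a5
      _ ≤ A₀ * (A₀ * r y + 1) := by linarith
      _ ≤ _ := by gcongr
  have hG : SubGauss 𝓜 g o w := HD.subGauss_of_growth A ho hws.aestronglyMeasurable hgrow
  have hlap : ∀ y ∈ 𝓜.carrier, 0 ≤ lap 𝓜 g w y := by
    intro y hy
    refine le_trans ?_ (s2_lap_logD_ge hm hS hδ hy)
    have := hh0 y hy
    have := s2_scalCurv_nonneg A hy
    positivity
  set t : ℝ := L ^ 2 with htdef
  have ht : 0 < t := by positivity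
  have hsqt : Real.sqrt t = L := Real.sqrt_sq hL0.le
  have hsub : w o ≤ HD.P t w o := hSub I ho DC w hws hlap hG t ht o ho
  have hi1 := HD.integrable t ht o ho
  have hi2 := (hC₁ t ht o ho).1
  have hi3 : Integrable (fun y => HD.Hk t o y * w y) (hvol 𝓜 g) := HD.integrable_Hk_mul A ho hG ht ho
  have hH0 : ∀ y, 0 ≤ HD.Hk t o y := fun y => HD.Hk_nonneg A ht o y
  have hi4 : Integrable (fun y => HD.Hk t o y * |w y|) (hvol 𝓜 g) := by
    refine hi3.abs.congr (Filter.Eventually.of_forall fun y => ?_)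
    simp only [abs_mul, abs_of_nonneg (hH0 y)]
  -- total mass of `H |w|`
  have htot : ∫ y, HD.Hk t o y * |w y| ∂(hvol 𝓜 g) ≤ K * L := by
    have hb1 : Integrable (fun y => (2 * (B₀ + 1)) * HD.Hk t o y + (2 * B₀) * (HD.Hk t o y * r y))
        (hvol 𝓜 g) := (hi1.const_mul _).add (hi2.const_mul _)
    have hb : Integrable (fun y => (2 * (B₀ + 1)) * HD.Hk t o y + (2 * B₀) * (HD.Hk t o y * r y)
        - HD.Hk t o y * w y) (hvol 𝓜 g) := hb1.sub hi3
    have e1 : ∫ y, HD.Hk t o y * |w y| ∂(hvol 𝓜 g) ≤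
        ∫ y, ((2 * (B₀ + 1)) * HD.Hk t o y + (2 * B₀) * (HD.Hk t o y * r y)
          - HD.Hk t o y * w y) ∂(hvol 𝓜 g) := by
      refine integral_hvol_mono hi4 hb fun y hy => ?_
      have a1 := hwup y hy
      have a2 : |w y| ≤ 2 * (B₀ * (1 + r y) + 1) - w y := by
        have : 0 ≤ B₀ * (1 + r y) + 1 := by have := hr0 y; positivity
        rcases abs_cases (w y) with ⟨e, _⟩ | ⟨e, _⟩ <;> rw [e] <;> linarith
      calc HD.Hk t o y * |w y| ≤ HD.Hk t o y * (2 * (B₀ * (1 + r y) + 1) - w y) := by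
            gcongr; exact hH0 y
        _ = _ := by ring
    rw [integral_sub hb1 hi3,
      integral_add (hi1.const_mul _) (hi2.const_mul _), integral_const_mul, integral_const_mul,
      HD.mass t ht o ho] at e1
    have e2 := (hC₁ t ht o ho).2
    rw [hsqt] at e2
    have e3 : ∫ y, HD.Hk t o y * r y ∂(hvol 𝓜 g) ≤ B₁ * L := e2.trans (by gcongr; exact le_max_left _ _)
    have e4 : Real.log (h o) ≤ w o := Real.log_le_log hpos (by linarith)
    have e5 : w o ≤ ∫ y, HD.Hk t o y * w y ∂(hvol 𝓜 g) := hsub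
    have e6 := neg_abs_le (Real.log (h o))
    have e7 : 2 * B₀ * ∫ y, HD.Hk t o y * r y ∂(hvol 𝓜 g) ≤ 2 * B₀ * (B₁ * L) := by gcongr
    have e8 : 0 ≤ |Real.log (h o)| := abs_nonneg _
    calc ∫ y, HD.Hk t o y * |w y| ∂(hvol 𝓜 g) ≤ 2 * (B₀ + 1) + 2 * B₀ * (B₁ * L) + |Real.log (h o)| := by
          linarith
      _ ≤ K * L := by
          rw [hK]
          nlinarith [mul_nonneg hB₀0 hB₁0]
  have hVpos : 0 < Vb 𝓜 g o L := HD.vol.pos o ho L hL0
  have hmb : MeasurableSet (hball 𝓜 g o L) := measurableSet_hball hm I.conn o L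
  have hiw : IntegrableOn (fun y => |w y|) (hball 𝓜 g o L) (hvol 𝓜 g) :=
    (integrableOn_hvol_of_continuousOn hm (I.proper o ho L) (hcball_subset_carrier _ _ _ _)
      (hws.continuousOn.abs.mono (hcball_subset_carrier _ _ _ _))).mono_set (hball_subset_hcball _ _ _ _)
  have hfin : c / Vb 𝓜 g o L * ∫ y in hball 𝓜 g o L, |w y| ∂(hvol 𝓜 g) ≤ K * L := by
    rw [← integral_const_mul]
    calc ∫ y in hball 𝓜 g o L, c / Vb 𝓜 g o L * |w y| ∂(hvol 𝓜 g)
        ≤ ∫ y in hball 𝓜 g o L, HD.Hk t o y * |w y| ∂(hvol 𝓜 g) := by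
          refine setIntegral_mono_on (hiw.const_mul _) hi4.integrableOn hmb fun y hy => ?_
          have := hlow t ht o ho y hy.1 (by rw [hsqt, one_mul]; exact hy.2.le)
          rw [hsqt] at this
          gcongr
      _ ≤ ∫ y, HD.Hk t o y * |w y| ∂(hvol 𝓜 g) :=
          setIntegral_le_integral hi4 (Filter.Eventually.of_forall fun y =>
            mul_nonneg (hH0 y) (abs_nonneg _))
      _ ≤ K * L := htot
  rw [div_mul_eq_mul_div, div_le_iff₀ hVpos] at hfin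
  rw [div_mul_eq_mul_div, div_mul_eq_mul_div, le_div_iff₀ hc]
  linarith

theorem st2AvgLog : St2AvgLog 𝓜 g o := by
  intro I ho hD S hS hpos hgr
  have hm : IsMetric 𝓜 g := I.kahler.toIsMetric
  obtain ⟨C, hC⟩ := hD S hS hpos hgr
  refine ⟨C, fun L hL => ?_⟩
  set h := canNormSq 𝓜 g S with hhdef
  set μ := (hvol 𝓜 g).restrict (hball 𝓜 g o L) with hμ
  set B := C * L * Vb 𝓜 g o L with hB
  set F : ℕ → V → ℝ := fun k y => |Real.log (h y + 1 / ((k : ℝ) + 1))| with hF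
  have hδk : ∀ k : ℕ, (0 : ℝ) < 1 / ((k : ℝ) + 1) := fun k => by positivity
  have hδk1 : ∀ k : ℕ, 1 / ((k : ℝ) + 1) ≤ 1 := fun k => by
    rw [div_le_one (by positivity)]; have : (0 : ℝ) ≤ k := Nat.cast_nonneg k; linarith
  have hFi : ∀ k, Integrable (F k) μ := fun k =>
    (integrableOn_hvol_of_continuousOn hm (I.proper o ho L) (hcball_subset_carrier _ _ _ _)
      ((s2_smooth_logD hm hS (hδk k)).continuousOn.abs.mono (hcball_subset_carrier _ _ _ _))).mono_set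
      (hball_subset_hcball _ _ _ _)
  have hFb : ∀ k, ∫ y, F k y ∂μ ≤ B := fun k => hC L hL _ (hδk k) (hδk1 k)
  have hB0 : 0 ≤ B := (integral_nonneg fun y => abs_nonneg _).trans (hFb 0)
  have hFl : ∀ k, ∫⁻ y, ENNReal.ofReal (F k y) ∂μ ≤ ENNReal.ofReal B := fun k => by
    rw [← ofReal_integral_eq_lintegral_ofReal (hFi k) (Filter.Eventually.of_forall fun y => abs_nonneg _)]
    exact ENNReal.ofReal_le_ofReal (hFb k)
  have hpt : ∀ y ∈ 𝓜.carrier, ENNReal.ofReal |Real.log (h y)| ≤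
      Filter.liminf (fun k => ENNReal.ofReal (F k y)) Filter.atTop := by
    intro y hy
    have h0 : 0 ≤ h y := canNormSq_nonneg hm S hy
    rcases h0.eq_or_lt with e | hp
    · rw [← e]; simp
    · have t1 : Filter.Tendsto (fun k : ℕ => h y + 1 / ((k : ℝ) + 1)) Filter.atTop (𝓝 (h y + 0)) :=
        tendsto_const_nhds.add tendsto_one_div_add_atTop_nhds_zero_nat
      rw [add_zero] at t1
      have t2 : Filter.Tendsto (fun k : ℕ => ENNReal.ofReal (F k y)) Filter.atTop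
          (𝓝 (ENNReal.ofReal |Real.log (h y)|)) :=
        (ENNReal.continuous_ofReal.tendsto _).comp
          (((Real.continuousAt_log hp.ne').tendsto.comp t1).abs)
      rw [t2.liminf_eq]
  have hmeas : AEStronglyMeasurable (fun y => |Real.log (h y)|) μ := by
    have h1 : AEMeasurable h (hvol 𝓜 g) := (smooth_canNormSq hm hS).aestronglyMeasurable.aemeasurable
    exact ((Real.measurable_log.comp_aemeasurable h1).abs.aestronglyMeasurable).restrict
  have hlin : ∫⁻ y, ENNReal.ofReal |Real.log (h y)| ∂μ ≤ ENNReal.ofReal B := by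
    calc ∫⁻ y, ENNReal.ofReal |Real.log (h y)| ∂μ
        ≤ ∫⁻ y, Filter.liminf (fun k => ENNReal.ofReal (F k y)) Filter.atTop ∂μ := by
          refine lintegral_mono_ae (ae_restrict_of_ae (ae_hvol_of_forall_mem hpt))
      _ ≤ Filter.liminf (fun k => ∫⁻ y, ENNReal.ofReal (F k y) ∂μ) Filter.atTop :=
          lintegral_liminf_le' fun k => (hFi k).aestronglyMeasurable.aemeasurable.ennreal_ofReal
      _ ≤ ENNReal.ofReal B := by
          refine Filter.liminf_le_of_le (by isBoundedDefault) fun b hb => ?_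
          obtain ⟨k, hk⟩ := hb.exists
          exact hk.trans (hFl k)
  have hint : Integrable (fun y => |Real.log (h y)|) μ :=
    ⟨hmeas, (hasFiniteIntegral_iff_ofReal (Filter.Eventually.of_forall fun y => abs_nonneg _)).2
      (hlin.trans_lt ENNReal.ofReal_lt_top)⟩
  refine ⟨hint, ?_⟩
  rw [integral_eq_lintegral_of_nonneg_ae (Filter.Eventually.of_forall fun y => abs_nonneg _) hmeas]
  exact ENNReal.toReal_le_of_le_ofReal hB0 hlin

/-! ### leaf `S2-AvgR` -/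

set_option maxHeartbeats 1000000 in
theorem st2AvgR : St2AvgR 𝓜 g o := by
  intro I ho VC DC hD hex
  obtain ⟨S, hS, hpos, hgr⟩ := hex
  obtain ⟨C₁, hC₁⟩ := hD S hS hpos hgr
  obtain ⟨C₂, hC₂⟩ := DC
  obtain ⟨C₃, hC₃1, hC₃⟩ := VC.ratio
  have A := anaSetting_of_initialData I
  have hm : IsMetric 𝓜 g := I.kahler.toIsMetric
  set h := canNormSq 𝓜 g S with hhdef
  have hhs : 𝓜.Smooth h := smooth_canNormSq hm hS
  have hh0 : ∀ y ∈ 𝓜.carrier, 0 ≤ h y := fun y hy => canNormSq_nonneg hm S hy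
  set Rc := scalCurv 𝓜 g with hRc
  have hRs : 𝓜.Smooth Rc := smooth_scalCurv hm
  have hR0 : ∀ y ∈ 𝓜.carrier, 0 ≤ Rc y := fun y hy => s2_scalCurv_nonneg A hy
  refine ⟨3 * n * |C₂| * |C₁| * C₃ * 3 ^ (2 * n), fun L hL => ?_⟩
  have hL0 : 0 < L := by linarith
  obtain ⟨v, hvs, hv01, hv0, hv1, -, hvu, hvl⟩ := hC₂ L hL
  set η : V → ℝ := fun y => 1 - v y with hηdef
  have hηs : 𝓜.Smooth η := hvs.const_sub 1
  have hη01 : ∀ y ∈ 𝓜.carrier, 0 ≤ η y ∧ η y ≤ 1 := fun y hy =>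
    ⟨by have := (hv01 y hy).2; simp only [hηdef]; linarith,
     by have := (hv01 y hy).1; simp only [hηdef]; linarith⟩
  have hKc : IsCompact (hcball 𝓜 g o (2 * L)) := I.proper o ho _
  have hη0 : ∀ y ∈ 𝓜.carrier, y ∉ hcball 𝓜 g o (2 * L) → η y = 0 := by
    intro y hy hyK
    have : 2 * L ≤ hdist 𝓜 g o y := by
      by_contra hlt
      exact hyK ⟨hy, (not_le.1 hlt).le⟩
    simp only [hηdef, hv1 y hy this, sub_self]
  have hηc : 𝓜.CSupp η := ⟨_, hKc, hcball_subset_carrier _ _ _ _, hη0⟩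
  set c := |C₂| / L ^ 2 with hcdef
  have hc0 : 0 ≤ c := by positivity
  have hlapη : ∀ y ∈ 𝓜.carrier, |lap 𝓜 g η y| ≤ n * c := by
    intro y hy
    have e : lap 𝓜 g η y = - lap 𝓜 g v y := by
      rw [hηdef, lap_sub g (CMfd.c2At_const 1) (hvs.c2At hy), lap_const, zero_sub]
    rw [e, abs_neg]
    have h1 : leF 𝓜 (ddc v) (smulF (fun _ => c) g) :=
      hvu.trans (leF_smulF_of_le (fun x _ => by
        show C₂ / L ^ 2 ≤ |C₂| / L ^ 2
        gcongr; exact le_abs_self _) hm.zero_leF)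
    have h2 : leF 𝓜 (smulF (fun _ => -c) g) (ddc v) :=
      (leF_smulF_of_le (fun x _ => by
        show -(|C₂| / L ^ 2) ≤ -(C₂ / L ^ 2)
        rw [neg_le_neg_iff]; gcongr; exact le_abs_self _) hm.zero_leF).trans hvl
    have := abs_tr_le hm h1 h2 hy
    simpa [lap] using this
  have hlapη0 : ∀ y ∈ 𝓜.carrier, y ∉ hcball 𝓜 g o (2 * L) → lap 𝓜 g η y = 0 := fun y hy hyK =>
    lap_eq_zero_of_notMem hKc.isClosed hη0 g hy hyK
  set M := n * c * (|C₁| * (3 * L) * Vb 𝓜 g o (3 * L)) with hM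
  have hVnn : ∀ ρ : ℝ, 0 ≤ Vb 𝓜 g o ρ := fun ρ => ENNReal.toReal_nonneg
  have hmb : MeasurableSet (hball 𝓜 g o (3 * L)) := measurableSet_hball hm I.conn o _
  -- the inequality for every `δ`
  have hδineq : ∀ δ : ℝ, 0 < δ → δ ≤ 1 →
      ∫ y, η y * (h y / (h y + δ) * Rc y) ∂(hvol 𝓜 g) ≤ M := by
    intro δ hδ hδ1
    set w : V → ℝ := fun y => Real.log (h y + δ) with hwdef
    have hws : 𝓜.Smooth w := s2_smooth_logD hm hS hδ
    have hq : 𝓜.Smooth (fun y => h y / (h y + δ) * Rc y) :=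
      (hhs.div (hhs.add_const δ) fun y hy => by have := hh0 y hy; positivity).mul hRs
    have i1 : Integrable (fun y => η y * (h y / (h y + δ) * Rc y)) (hvol 𝓜 g) :=
      integrable_hvol_of_csupp hm (hηs.mul hq).continuousOn (hηc.mul_right _)
    have i2 : Integrable (fun y => η y * lap 𝓜 g w y) (hvol 𝓜 g) :=
      integrable_hvol_of_csupp hm (hηs.mul (smooth_lap hm hws)).continuousOn (hηc.mul_right _)
    have i3 : Integrable (fun y => w y * lap 𝓜 g η y) (hvol 𝓜 g) :=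
      integrable_hvol_of_csupp hm (hws.mul (smooth_lap hm hηs)).continuousOn ((hηc.lap g).mul_left _)
    have iw : IntegrableOn (fun y => |w y|) (hball 𝓜 g o (3 * L)) (hvol 𝓜 g) :=
      (integrableOn_hvol_of_continuousOn hm (I.proper o ho _) (hcball_subset_carrier _ _ _ _)
        (hws.continuousOn.abs.mono (hcball_subset_carrier _ _ _ _))).mono_set
        (hball_subset_hcball _ _ _ _)
    have i4 : Integrable ((hball 𝓜 g o (3 * L)).indicator fun y => n * c * |w y|) (hvol 𝓜 g) :=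
      IntegrableOn.integrable_indicator (iw.const_mul _) hmb
    calc ∫ y, η y * (h y / (h y + δ) * Rc y) ∂(hvol 𝓜 g)
        ≤ ∫ y, η y * lap 𝓜 g w y ∂(hvol 𝓜 g) := by
          refine integral_hvol_mono i1 i2 fun y hy => ?_
          exact mul_le_mul_of_nonneg_left (s2_lap_logD_ge hm hS hδ hy) (hη01 y hy).1
      _ = ∫ y, w y * lap 𝓜 g η y ∂(hvol 𝓜 g) := integral_mul_lap_comm I.kahler hηs hηc hws
      _ ≤ ∫ y, (hball 𝓜 g o (3 * L)).indicator (fun y => n * c * |w y|) y ∂(hvol 𝓜 g) := by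
          refine integral_hvol_mono i3 i4 fun y hy => ?_
          by_cases hyK : y ∈ hcball 𝓜 g o (2 * L)
          · have hyB : y ∈ hball 𝓜 g o (3 * L) := ⟨hy, lt_of_le_of_lt hyK.2 (by linarith)⟩
            rw [Set.indicator_of_mem hyB]
            calc w y * lap 𝓜 g η y ≤ |w y| * |lap 𝓜 g η y| := by
                  rw [← abs_mul]; exact le_abs_self _
              _ ≤ |w y| * (n * c) := by gcongr; exact hlapη y hy
              _ = _ := by ring
          · rw [hlapη0 y hy hyK, mul_zero]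
            exact Set.indicator_nonneg (fun y _ => by positivity) y
      _ = n * c * ∫ y in hball 𝓜 g o (3 * L), |w y| ∂(hvol 𝓜 g) := by
          rw [integral_indicator hmb, integral_const_mul]
      _ ≤ n * c * (|C₁| * (3 * L) * Vb 𝓜 g o (3 * L)) := by
          gcongr
          refine (hC₁ (3 * L) (by linarith) δ hδ hδ1).trans ?_
          have := hVnn (3 * L)
          gcongr
          exact le_abs_self _
  -- the zero set is null
  have hnull : ∀ᵐ y ∂(hvol 𝓜 g), y ∈ hball 𝓜 g o (3 * L) → h y ≠ 0 :=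
    (ae_restrict_iff' hmb).1 (s2_ae_ne_zero I ho hS (hC₁ (3 * L) (by linarith)))
  -- the limit
  have iR : Integrable (fun y => η y * Rc y) (hvol 𝓜 g) :=
    integrable_hvol_of_csupp hm (hηs.mul hRs).continuousOn (hηc.mul_right _)
  have hlim : Filter.Tendsto (fun k : ℕ => ∫ y, η y * (h y / (h y + 1 / ((k : ℝ) + 1)) * Rc y) ∂(hvol 𝓜 g))
      Filter.atTop (𝓝 (∫ y, η y * Rc y ∂(hvol 𝓜 g))) := by
    refine tendsto_integral_of_dominated_convergence (fun y => η y * Rc y) (fun k => ?_) iR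
      (fun k => ?_) ?_
    · have hδ : (0 : ℝ) < 1 / ((k : ℝ) + 1) := by positivity
      have hq : 𝓜.Smooth (fun y => h y / (h y + 1 / ((k : ℝ) + 1)) * Rc y) :=
        (hhs.div (hhs.add_const _) fun y hy => by have := hh0 y hy; positivity).mul hRs
      exact (hηs.mul hq).aestronglyMeasurable
    · refine ae_hvol_of_forall_mem fun y hy => ?_
      have hδ : (0 : ℝ) < 1 / ((k : ℝ) + 1) := by positivity
      have a1 := hh0 y hy
      have a2 := hR0 y hy
      have a3 := (hη01 y hy).1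
      have a4 : h y / (h y + 1 / ((k : ℝ) + 1)) ≤ 1 := by
        rw [div_le_one (by positivity)]; linarith
      have a5 : 0 ≤ h y / (h y + 1 / ((k : ℝ) + 1)) := by positivity
      rw [Real.norm_eq_abs, abs_of_nonneg (by positivity)]
      gcongr
      nlinarith
    · filter_upwards [hnull, ae_mem_carrier 𝓜 g] with y hy hyM
      by_cases hyB : y ∈ hball 𝓜 g o (3 * L)
      · have hne := hy hyB
        have t1 : Filter.Tendsto (fun k : ℕ => h y + 1 / ((k : ℝ) + 1)) Filter.atTop (𝓝 (h y + 0)) :=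
          tendsto_const_nhds.add tendsto_one_div_add_atTop_nhds_zero_nat
        rw [add_zero] at t1
        have t2 : Filter.Tendsto (fun k : ℕ => h y / (h y + 1 / ((k : ℝ) + 1))) Filter.atTop
            (𝓝 (h y / h y)) := tendsto_const_nhds.div t1 hne
        rw [div_self hne] at t2
        have t3 := (t2.mul_const (Rc y)).const_mul (η y)
        rwa [one_mul] at t3
      · have : η y = 0 := hη0 y hyM fun hK => hyB ⟨hyM, lt_of_le_of_lt hK.2 (by linarith)⟩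
        simp only [this, zero_mul]
        exact tendsto_const_nhds
  have hηR : ∫ y, η y * Rc y ∂(hvol 𝓜 g) ≤ M := by
    refine le_of_tendsto' hlim fun k => hδineq _ (by positivity) ?_
    rw [div_le_one (by positivity)]; have : (0 : ℝ) ≤ k := Nat.cast_nonneg k; linarith
  have hmbL : MeasurableSet (hball 𝓜 g o L) := measurableSet_hball hm I.conn o _
  have hfirst : ∫ y in hball 𝓜 g o L, Rc y ∂(hvol 𝓜 g) ≤ ∫ y, η y * Rc y ∂(hvol 𝓜 g) := by
    calc ∫ y in hball 𝓜 g o L, Rc y ∂(hvol 𝓜 g) = ∫ y in hball 𝓜 g o L, η y * Rc y ∂(hvol 𝓜 g) := by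
          refine setIntegral_congr_fun hmbL fun y hy => ?_
          simp only [hηdef, hv0 y hy.1 hy.2.le, sub_zero, one_mul]
      _ ≤ ∫ y, η y * Rc y ∂(hvol 𝓜 g) :=
          setIntegral_le_integral iR (ae_hvol_of_forall_mem fun y hy =>
            mul_nonneg (hη01 y hy).1 (hR0 y hy))
  have hV : Vb 𝓜 g o (3 * L) ≤ C₃ * 3 ^ (2 * n) * Vb 𝓜 g o L := by
    have := hC₃ o ho L (3 * L) hL0 (by linarith)
    rwa [mul_div_assoc, div_self hL0.ne', mul_one] at this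
  calc ∫ y in hball 𝓜 g o L, Rc y ∂(hvol 𝓜 g) ≤ M := hfirst.trans hηR
    _ ≤ n * c * (|C₁| * (3 * L) * (C₃ * 3 ^ (2 * n) * Vb 𝓜 g o L)) := by
        rw [hM]; gcongr
    _ = 3 * n * |C₂| * |C₁| * C₃ * 3 ^ (2 * n) / L * Vb 𝓜 g o L := by
        rw [hcdef]; field_simp

end Claimed.Agent.R316
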