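import Claimed.Agent.R316.S2.Geo

/-!
# Row 316, Section 2, leaves `S2-Cutoffs`, `S2-Exhaustion` (PROVED, helper97)
-/

set_option autoImplicit false
open scoped ContDiff ComplexOrder Topology
open MeasureTheory

namespace Claimed.Agent.R316

/-- the powers of two below `r` add up to at most `2 r`. -/
theorem s2_sum_pow_le {r : ℝ} (hr : 0 ≤ r) (N : ℕ) :
    ∑ j ∈ Finset.range N, (if (2 : ℝ) ^ j ≤ r then (2 : ℝ) ^ j else 0) ≤ 2 * r := by
  have hgeo : ∀ N : ℕ, ∑ j ∈ Finset.range N, (if (2 : ℝ) ^ j ≤ r then (2 : ℝ) ^ j else 0) ≤ 2 ^ N := by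
    intro N
    induction N with
    | zero => simp
    | succ N ih =>
      rw [Finset.sum_range_succ, pow_succ]
      have : (if (2 : ℝ) ^ N ≤ r then (2 : ℝ) ^ N else 0) ≤ 2 ^ N := by
        split_ifs
        · exact le_rfl
        · positivity
      linarith
  induction N with
  | zero => simpa using hr
  | succ N ih =>
    rw [Finset.sum_range_succ]
    split_ifs with h
    · have := hgeo N
      linarith
    · linarith

theorem s2_count_le {r : ℝ} (hr0 : 0 ≤ r) (N : ℕ) :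
    ∑ j ∈ Finset.range N, (if (2 : ℝ) ^ j ≤ r ∧ r ≤ 2 ^ (j + 1) then (1 : ℝ) else 0) ≤ 4 := by
  rcases hr0.eq_or_lt with rfl | hr
  · refine (Finset.sum_nonpos fun j _ => ?_).trans (by norm_num)
    rw [if_neg]
    rintro ⟨h, -⟩
    exact absurd h (not_le.2 (by positivity))
  have h1 : ∀ j ∈ Finset.range N, (if (2 : ℝ) ^ j ≤ r ∧ r ≤ 2 ^ (j + 1) then (1 : ℝ) else 0) ≤
      2 / r * (if (2 : ℝ) ^ j ≤ r then (2 : ℝ) ^ j else 0) := by
    intro j _
    by_cases h : (2 : ℝ) ^ j ≤ r ∧ r ≤ 2 ^ (j + 1)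
    · rw [if_pos h, if_pos h.1, div_mul_eq_mul_div, le_div_iff₀ hr]
      have := h.2
      rw [pow_succ] at this
      linarith
    · rw [if_neg h]
      have : 0 ≤ (if (2 : ℝ) ^ j ≤ r then (2 : ℝ) ^ j else 0) := by split_ifs <;> positivity
      positivity
  calc _ ≤ ∑ j ∈ Finset.range N, 2 / r * (if (2 : ℝ) ^ j ≤ r then (2 : ℝ) ^ j else 0) :=
        Finset.sum_le_sum h1
    _ = 2 / r * ∑ j ∈ Finset.range N, (if (2 : ℝ) ^ j ≤ r then (2 : ℝ) ^ j else 0) := by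
        rw [Finset.mul_sum]
    _ ≤ 2 / r * (2 * r) := by gcongr; exact s2_sum_pow_le hr.le N
    _ = 4 := by field_simp; norm_num

theorem s2_sum_inv_le {r : ℝ} (hr0 : 0 ≤ r) (N : ℕ) :
    ∑ j ∈ Finset.range N, (if (2 : ℝ) ^ j ≤ r ∧ r ≤ 2 ^ (j + 1) then 1 / (2 : ℝ) ^ j else 0)
      ≤ 24 / (1 + 2 * r) := by
  by_cases hr1 : r < 1
  · refine (Finset.sum_nonpos fun j _ => ?_).trans (by positivity)
    rw [if_neg]
    rintro ⟨h, -⟩
    have : (1 : ℝ) ≤ 2 ^ j := one_le_pow₀ (by norm_num)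
    linarith
  push Not at hr1
  have hr : 0 < r := by linarith
  have h1 : ∀ j ∈ Finset.range N,
      (if (2 : ℝ) ^ j ≤ r ∧ r ≤ 2 ^ (j + 1) then 1 / (2 : ℝ) ^ j else 0) ≤
      4 / r ^ 2 * (if (2 : ℝ) ^ j ≤ r then (2 : ℝ) ^ j else 0) := by
    intro j _
    by_cases h : (2 : ℝ) ^ j ≤ r ∧ r ≤ 2 ^ (j + 1)
    · rw [if_pos h, if_pos h.1, div_mul_eq_mul_div, div_le_div_iff₀ (by positivity) (by positivity)]
      have h2 := h.2
      rw [pow_succ] at h2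
      have h3 : (0 : ℝ) < 2 ^ j := by positivity
      nlinarith
    · rw [if_neg h]
      have : 0 ≤ (if (2 : ℝ) ^ j ≤ r then (2 : ℝ) ^ j else 0) := by split_ifs <;> positivity
      positivity
  calc _ ≤ ∑ j ∈ Finset.range N, 4 / r ^ 2 * (if (2 : ℝ) ^ j ≤ r then (2 : ℝ) ^ j else 0) :=
        Finset.sum_le_sum h1
    _ = 4 / r ^ 2 * ∑ j ∈ Finset.range N, (if (2 : ℝ) ^ j ≤ r then (2 : ℝ) ^ j else 0) := by
        rw [Finset.mul_sum]
    _ ≤ 4 / r ^ 2 * (2 * r) := by gcongr; exact s2_sum_pow_le hr.le N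
    _ = 8 / r := by field_simp; norm_num
    _ ≤ 24 / (1 + 2 * r) := by
        rw [div_le_div_iff₀ hr (by positivity)]; linarith

variable {V : Type} [NormedAddCommGroup V] [NormedSpace ℝ V] [MeasurableSpace V] [BorelSpace V]
variable [FiniteDimensional ℝ V]
variable {n : ℕ} (𝓜 : CMfd V (Fin n)) (g : HFam V (Fin n)) (o : V)

section tools

variable {𝓜 g}
variable {Φ : CE (Fin n) → V} {U : Set (CE (Fin n))} {z : CE (Fin n)} {w : V → ℝ}

/-- an upper bound of `dd w` and a lower bound of `Δ w` give a lower bound of `dd w`. -/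
theorem s2_qf_ddc_lower (hm : IsMetric 𝓜 g) (hw : 𝓜.Smooth w) {c m : ℝ}
    (hup : leF 𝓜 (ddc w) (smulF (fun _ => c) g)) (hlap : ∀ x ∈ 𝓜.carrier, -m ≤ lap 𝓜 g w x)
    (hΦ : 𝓜.IsHol Φ U) (hz : z ∈ U) (v : Fin n → ℂ) :
    (c - (n * c + m)) * qf (g Φ z) v ≤ qf (ddc w Φ z) v := by
  have hA := hup Φ U hΦ z hz
  have h1 := qf_nonneg (le_trace_smul (hm.posDef hΦ z hz) hA) v
  have hG : 0 ≤ qf (g Φ z) v := qf_nonneg (hm.posDef hΦ z hz).posSemidef v
  have htr : ((g Φ z)⁻¹ * (smulF (fun _ => c) g Φ z - ddc w Φ z)).trace.re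
      = c * n - lap 𝓜 g w (Φ z) := by
    rw [lap_eq hm hw hΦ hz, Matrix.mul_sub, Matrix.trace_sub, Complex.sub_re, smulF,
      Matrix.mul_smul, Matrix.trace_smul, smul_eq_mul, Complex.re_ofReal_mul,
      trace_inv_mul_self (hm.posDef hΦ z hz)]
    simp [ddc]
  rw [htr, qf_sub, qf_smul, qf_sub, smulF, qf_smul] at h1
  have h2 := hlap (Φ z) (CMfd.mem_carrier hΦ hz)
  nlinarith

end tools

set_option maxHeartbeats 1000000 in
theorem st2Cutoffs : St2Cutoffs 𝓜 g o := by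
  intro I ho HD hMom hLY hTr
  have S := anaSetting_of_initialData I
  have hm : IsMetric 𝓜 g := I.kahler.toIsMetric
  obtain ⟨C₁, hC₁⟩ := hMom I
  obtain ⟨C₂, hC₂⟩ := hLY I
  obtain ⟨C₃, hC₃⟩ := hTr I ho
  obtain ⟨η, C₀, hηs, hη01, hη1, hη0, hηd, -, hD1, hD2⟩ := ly_exists_profile
  have hC₀ : 0 ≤ C₀ := (abs_nonneg _).trans (hD1 0)
  set A₁ := max C₁ 0 with hA₁
  set A₂ := max C₂ 0 with hA₂
  set A₃ := max C₃ 0 with hA₃
  have hA₁0 : 0 ≤ A₁ := le_max_right _ _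
  have hA₂0 : 0 ≤ A₂ := le_max_right _ _
  have hA₃0 : 0 ≤ A₃ := le_max_right _ _
  set δ : ℝ := 1 / (8 * (A₃ * A₁ + 1)) with hδdef
  have hδ : 0 < δ := by positivity
  have hδ1 : A₃ * A₁ * δ ≤ 1 / 8 := by
    rw [hδdef, mul_one_div, div_le_iff₀ (by positivity)]
    nlinarith [mul_nonneg hA₃0 hA₁0]
  set K₁ : ℝ := (n + 1) * A₃ + A₂ / δ ^ 2 with hK₁
  have hK₁0 : 0 ≤ K₁ := by positivity
  set Cf : ℝ := 1 + 16 * C₀ ^ 2 * A₂ / δ ^ 2 + 4 * C₀ * K₁ + 16 * C₀ * A₂ / δ ^ 2 with hCf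
  have hCf1 : 1 ≤ Cf := by
    have : 0 ≤ 16 * C₀ ^ 2 * A₂ / δ ^ 2 + 4 * C₀ * K₁ + 16 * C₀ * A₂ / δ ^ 2 := by positivity
    linarith
  refine ⟨Cf, fun L hL => ?_⟩
  have hL0 : 0 < L := by linarith
  obtain ⟨f, hfs, hfm, hf01, hfL, hf2L, hf3L, hflip, hfdd⟩ := hC₃ (1 / 8) (by norm_num) L hL
  set a : ℝ := (δ * L) ^ 2 with hadef
  have ha : 0 < a := by positivity
  have hsqa : Real.sqrt a = δ * L := Real.sqrt_sq (by positivity)
  have hG : SubGauss 𝓜 g o f := HD.subGauss_of_bounded S ho hfm.aestronglyMeasurable (A := 1)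
    (fun y _ => by rw [abs_of_nonneg (hf01 y).1]; exact (hf01 y).2)
  set w : V → ℝ := HD.P a f with hwdef
  have hws : 𝓜.Smooth w := (HD.sol o ho f hG).1.smooth (t := a) ha
  -- closeness
  have hclose : ∀ x ∈ 𝓜.carrier, |w x - f x| ≤ 1 / 4 := by
    intro x hx
    have hi1 := HD.integrable a ha x hx
    have hi2 := (hC₁ a ha x hx).1
    have hi3 : Integrable (fun y => HD.Hk a x y * f y) (hvol 𝓜 g) := HD.integrable_Hk_mul S ho hG ha hx
    have e1 : w x - f x = ∫ y, HD.Hk a x y * (f y - f x) ∂(hvol 𝓜 g) := by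
      have : (fun y => HD.Hk a x y * (f y - f x)) = fun y => HD.Hk a x y * f y - HD.Hk a x y * f x := by
        funext y; ring
      rw [this, integral_sub hi3 (hi1.mul_const _), integral_mul_const, HD.mass a ha x hx, one_mul]
      rfl
    have hb : Integrable (fun y => A₃ / L * (HD.Hk a x y * hdist 𝓜 g x y) + 1 / 8 * HD.Hk a x y)
        (hvol 𝓜 g) := (hi2.const_mul _).add (hi1.const_mul _)
    have e2 : ‖∫ y, HD.Hk a x y * (f y - f x) ∂(hvol 𝓜 g)‖ ≤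
        ∫ y, (A₃ / L * (HD.Hk a x y * hdist 𝓜 g x y) + 1 / 8 * HD.Hk a x y) ∂(hvol 𝓜 g) := by
      refine norm_integral_le_of_norm_le hb (ae_hvol_of_forall_mem fun y hy => ?_)
      have h0 := HD.Hk_nonneg S ha x y
      have h1 := hflip y hy x hx
      have h2 : 0 ≤ hdist 𝓜 g x y := hdist_nonneg _ _ _ _
      rw [hdist_comm hm y x] at h1
      have h3 : C₃ / L * hdist 𝓜 g x y ≤ A₃ / L * hdist 𝓜 g x y := by
        gcongr; exact le_max_left _ _
      rw [Real.norm_eq_abs, abs_mul, abs_of_nonneg h0]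
      calc HD.Hk a x y * |f y - f x| ≤ HD.Hk a x y * (A₃ / L * hdist 𝓜 g x y + 1 / 8) := by
            gcongr; linarith
        _ = _ := by ring
    rw [e1, ← Real.norm_eq_abs]
    refine e2.trans ?_
    rw [integral_add (hi2.const_mul _) (hi1.const_mul _), integral_const_mul, integral_const_mul,
      HD.mass a ha x hx]
    have h4 := (hC₁ a ha x hx).2
    rw [hsqa] at h4
    have h5 : ∫ y, HD.Hk a x y * hdist 𝓜 g x y ∂(hvol 𝓜 g) ≤ A₁ * (δ * L) :=
      h4.trans (by gcongr; exact le_max_left _ _)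
    calc A₃ / L * ∫ y, HD.Hk a x y * hdist 𝓜 g x y ∂(hvol 𝓜 g) + 1 / 8 * 1
        ≤ A₃ / L * (A₁ * (δ * L)) + 1 / 8 * 1 := by gcongr
      _ = A₃ * A₁ * δ + 1 / 8 := by field_simp
      _ ≤ 1 / 4 := by linarith
  -- Hessian bounds
  have hup : leF 𝓜 (ddc w) (smulF (fun _ => A₃ / L ^ 2) g) := by
    refine HD.nt1 f (A₃ / L ^ 2) 1 (hcball 𝓜 g o (3 * L)) hfs (I.proper o ho _)
      (hcball_subset_carrier _ _ _ _) (fun y hy hyK => hf3L y hy ?_) (by positivity)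
      (hfdd.trans (leF_smulF_of_le (fun x _ => ?_) hm.zero_leF)) a ha
    · by_contra hlt
      exact hyK ⟨hy, (not_le.1 hlt).le⟩
    · gcongr; exact le_max_left _ _
  have hlap : ∀ x ∈ 𝓜.carrier, -(A₂ / a) ≤ lap 𝓜 g w x := by
    intro x hx
    have h1 := (abs_le.1 (hC₂ f hfm hf01 a ha x hx).1).1
    have h2 : C₂ / a ≤ A₂ / a := by gcongr; exact le_max_left _ _
    linarith
  have hgw : ∀ x ∈ 𝓜.carrier, gradSq 𝓜 g w x ≤ A₂ / a := by
    intro x hx
    refine (hC₂ f hfm hf01 a ha x hx).2.trans ?_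
    gcongr; exact le_max_left _ _
  have haL : A₂ / a = A₂ / δ ^ 2 / L ^ 2 := by rw [hadef]; field_simp
  have hL2 : 0 < L ^ 2 := by positivity
  -- the outer function
  set χ : ℝ → ℝ := fun s => 1 - η (4 * s + 1 / 2) with hχdef
  have hχs : ContDiff ℝ ∞ χ :=
    contDiff_const.sub (hηs.comp ((contDiff_const.mul contDiff_id).add contDiff_const))
  have hηdiff : Differentiable ℝ η := hηs.differentiable (by simp)
  have hη's : ContDiff ℝ ∞ (deriv η) := (contDiff_infty_iff_deriv.1 hηs).2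
  have hη'diff : Differentiable ℝ (deriv η) := hη's.differentiable (by simp)
  have hlin : ∀ s : ℝ, HasDerivAt (fun s : ℝ => 4 * s + 1 / 2) 4 s := fun s => by
    simpa using ((hasDerivAt_id s).const_mul 4).add_const (1 / 2 : ℝ)
  have hχ1 : ∀ s, deriv χ s = - (4 * deriv η (4 * s + 1 / 2)) := by
    intro s
    have h2 := ((hηdiff (4 * s + 1 / 2)).hasDerivAt.comp s (hlin s)).const_sub 1
    rw [show χ = fun s => 1 - (η ∘ fun s : ℝ => 4 * s + 1 / 2) s from rfl, h2.deriv]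
    ring
  have hχ2 : ∀ s, deriv (deriv χ) s = - (16 * deriv (deriv η) (4 * s + 1 / 2)) := by
    intro s
    have h2 := (((hη'diff (4 * s + 1 / 2)).hasDerivAt.comp s (hlin s)).const_mul 4).neg
    have h3 : deriv (fun s => - (4 * (deriv η ∘ fun s : ℝ => 4 * s + 1 / 2) s)) s = _ := h2.deriv
    rw [show deriv χ = fun s => - (4 * (deriv η ∘ fun s : ℝ => 4 * s + 1 / 2) s) from funext hχ1, h3]
    ring
  have hχ1b : ∀ s, |deriv χ s| ≤ 4 * C₀ := fun s => by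
    rw [hχ1, abs_neg, abs_mul]; simpa using hD1 _
  have hχ2b : ∀ s, |deriv (deriv χ) s| ≤ 16 * C₀ := fun s => by
    rw [hχ2, abs_neg, abs_mul]; simpa using hD2 _
  have hvs : 𝓜.Smooth (fun y => χ (w y)) := hws.comp hχs
  have key : ∀ (Φ : CE (Fin n) → V) (U : Set (CE (Fin n))), 𝓜.IsHol Φ U → ∀ z ∈ U, ∀ u : Fin n → ℂ,
      |qf (ddc (fun y => χ (w y)) Φ z) u| ≤ Cf / L ^ 2 * qf (g Φ z) u := by
    intro Φ U hΦ z hz u
    rw [s2_qf_ddc_comp χ hws hΦ hz (hχs.of_le lv_two_le_infty).contDiffAt u]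
    have hy : Φ z ∈ 𝓜.carrier := CMfd.mem_carrier hΦ hz
    have hGq : 0 ≤ qf (g Φ z) u := qf_nonneg (hm.posDef hΦ z hz).posSemidef u
    have hQ1 : qf (ddc w Φ z) u ≤ A₃ / L ^ 2 * qf (g Φ z) u := by
      have h := qf_mono (hup Φ U hΦ z hz) u
      rwa [smulF, qf_smul] at h
    have hQ2 := s2_qf_ddc_lower hm hws hup hlap hΦ hz u
    have hQ : |qf (ddc w Φ z) u| ≤ K₁ / L ^ 2 * qf (g Φ z) u := by
      have e : K₁ / L ^ 2 = (n + 1) * (A₃ / L ^ 2) + A₂ / a := by rw [haL, hK₁]; ring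
      have h0 : 0 ≤ A₃ / L ^ 2 := by positivity
      have h1 : 0 ≤ A₂ / a := by positivity
      have hn : (0 : ℝ) ≤ n := Nat.cast_nonneg n
      rw [abs_le, e]
      constructor
      · refine le_trans ?_ hQ2
        nlinarith
      · refine hQ1.trans ?_
        nlinarith [mul_nonneg hn h0]
    have hP0 := s2_qf_gradF_nonneg w Φ z u
    have hP : |qf (gradF w Φ z) u| ≤ A₂ / δ ^ 2 / L ^ 2 * qf (g Φ z) u := by
      rw [abs_of_nonneg hP0, ← haL]
      exact (s2_qf_gradF_le hm w hΦ hz u).trans (by gcongr; exact hgw _ hy)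
    calc |deriv χ (w (Φ z)) * qf (ddc w Φ z) u + deriv (deriv χ) (w (Φ z)) * qf (gradF w Φ z) u|
        ≤ |deriv χ (w (Φ z))| * |qf (ddc w Φ z) u|
          + |deriv (deriv χ) (w (Φ z))| * |qf (gradF w Φ z) u| := by
            rw [← abs_mul, ← abs_mul]; exact abs_add_le _ _
      _ ≤ 4 * C₀ * (K₁ / L ^ 2 * qf (g Φ z) u) + 16 * C₀ * (A₂ / δ ^ 2 / L ^ 2 * qf (g Φ z) u) := by
            gcongr
            · exact hχ1b _
            · exact hχ2b _
      _ = (4 * C₀ * K₁ + 16 * C₀ * A₂ / δ ^ 2) / L ^ 2 * qf (g Φ z) u := by ring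
      _ ≤ Cf / L ^ 2 * qf (g Φ z) u := by
            gcongr
            have : 0 ≤ 16 * C₀ ^ 2 * A₂ / δ ^ 2 := by positivity
            rw [hCf]; linarith
  refine ⟨fun y => χ (w y), hvs, fun y _ => ?_, fun y hy hyL => ?_, fun y hy hyL => ?_,
    fun y hy => ?_, ?_, ?_⟩
  · have := hη01 (4 * w y + 1 / 2)
    simp only [hχdef]
    constructor <;> linarith [this.1, this.2]
  · have h1 := abs_le.1 (hclose y hy)
    have h2 := hfL y hy hyL
    simp only [hχdef]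
    rw [hη1 (4 * w y + 1 / 2) (by linarith only [h1.2, h2])]; ring
  · have h1 := abs_le.1 (hclose y hy)
    have h2 := hf2L y hy hyL
    simp only [hχdef]
    rw [hη0 (4 * w y + 1 / 2) (by linarith only [h1.1, h2])]; ring
  · rw [gradSq_comp g hy (hχs.differentiable (by simp) _) (hws.diffAt hy)]
    have h1 : deriv χ (w y) ^ 2 ≤ (4 * C₀) ^ 2 := by
      rw [← sq_abs]; exact pow_le_pow_left₀ (abs_nonneg _) (hχ1b _) 2
    have h2 := hgw y hy
    have h3 : 0 ≤ gradSq 𝓜 g w y := gradSq_nonneg hm w hy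
    calc deriv χ (w y) ^ 2 * gradSq 𝓜 g w y ≤ (4 * C₀) ^ 2 * (A₂ / a) := by gcongr
      _ = (16 * C₀ ^ 2 * A₂ / δ ^ 2) / L ^ 2 := by rw [haL]; ring
      _ ≤ Cf ^ 2 / L ^ 2 := by
          gcongr
          have : 0 ≤ 4 * C₀ * K₁ + 16 * C₀ * A₂ / δ ^ 2 := by positivity
          have h5 : 16 * C₀ ^ 2 * A₂ / δ ^ 2 ≤ Cf := by rw [hCf]; linarith
          nlinarith
      _ = (Cf / L) ^ 2 := by ring
  · rw [leF_iff_qf (isHForm_ddc hvs) (hm.toIsHForm.smulF (CMfd.smooth_const _))]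
    intro Φ U hΦ z hz u
    rw [smulF, qf_smul]
    exact (abs_le.1 (key Φ U hΦ z hz u)).2
  · rw [leF_iff_qf (hm.toIsHForm.smulF (CMfd.smooth_const _)) (isHForm_ddc hvs)]
    intro Φ U hΦ z hz u
    rw [smulF, qf_smul]
    have := (abs_le.1 (key Φ U hΦ z hz u)).1
    linarith

/-! ### leaf `S2-Exhaustion` -/

variable {𝓜 g} in
theorem s2_sqrt_gradSq_sum_le (hm : IsMetric 𝓜 g) {x : V} (hx : x ∈ 𝓜.carrier) {α : Type}
    (s : Finset α) {F : α → V → ℝ} (hF : ∀ a ∈ s, 𝓜.DiffAt (F a) x) :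
    Real.sqrt (gradSq 𝓜 g (fun y => ∑ a ∈ s, F a y) x) ≤ ∑ a ∈ s, Real.sqrt (gradSq 𝓜 g (F a) x) := by
  classical
  induction s using Finset.induction_on with
  | empty => simp [gradSq_const]
  | insert a s ha ih =>
    simp only [Finset.sum_insert ha]
    refine (sqrt_gradSq_add_le hm hx (hF a (Finset.mem_insert_self _ _))
      (CMfd.DiffAt.sum s fun b hb => hF b (Finset.mem_insert_of_mem hb))).trans ?_
    gcongr
    exact ih fun b hb => hF b (Finset.mem_insert_of_mem hb)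

set_option maxHeartbeats 1000000 in
theorem st2Exhaustion : St2Exhaustion 𝓜 g o := by
  intro I ho DC
  have hm : IsMetric 𝓜 g := I.kahler.toIsMetric
  obtain ⟨C, hC⟩ := DC
  set C' := |C| with hC'def
  have hC'0 : 0 ≤ C' := abs_nonneg _
  have hCC' : C ≤ C' := le_abs_self _
  have h2p : ∀ j : ℕ, (1 : ℝ) ≤ 2 ^ j := fun j => one_le_pow₀ (by norm_num)
  choose v hvs hv01 hv0 hv1 hvg hvu hvl using fun j : ℕ => hC (2 ^ j) (h2p j)
  set r : V → ℝ := fun y => hdist 𝓜 g o y with hrdef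
  have hr0 : ∀ y, 0 ≤ r y := fun y => hdist_nonneg _ _ _ _
  have hrc : ContinuousOn r 𝓜.carrier := continuousOn_hdist_right hm I.conn ho
  set S : ℕ → V → ℝ := fun N y => (∑ j ∈ Finset.range N, 2 ^ j * v j y) + 1 with hSdef
  set u : V → ℝ := fun y => S ⌈r y⌉₊ y with hudef
  have hSs : ∀ N, 𝓜.Smooth (S N) := fun N =>
    (CMfd.Smooth.sum _ fun j _ => (hvs j).const_mul _).add_const 1
  have stab : ∀ y ∈ 𝓜.carrier, ∀ N M : ℕ, r y ≤ 2 ^ N → N ≤ M → S M y = S N y := by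
    intro y hy N M hN hNM
    simp only [hSdef]
    congr 1
    symm
    refine Finset.sum_subset (Finset.range_subset_range.2 hNM) fun j _ hj => ?_
    rw [Finset.mem_range, not_lt] at hj
    rw [hv0 j y hy (hN.trans (pow_le_pow_right₀ (by norm_num) hj)), mul_zero]
  have hceil : ∀ y, r y ≤ 2 ^ ⌈r y⌉₊ := fun y =>
    (Nat.le_ceil _).trans (by exact_mod_cast (Nat.lt_two_pow_self).le)
  have hueq : ∀ y ∈ 𝓜.carrier, ∀ N : ℕ, r y ≤ 2 ^ N → u y = S N y := by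
    intro y hy N hN
    rw [hudef]
    simp only
    rw [← stab y hy _ (max N ⌈r y⌉₊) (hceil y) (le_max_right _ _),
      stab y hy N (max N ⌈r y⌉₊) hN (le_max_left _ _)]
  have hloc : ∀ x ∈ 𝓜.carrier, ∀ N : ℕ, r x < 2 ^ N → u =ᶠ[𝓝[𝓜.carrier] x] S N := by
    intro x hx N hN
    have h1 : ∀ᶠ y in 𝓝[𝓜.carrier] x, r y < 2 ^ N := (hrc x hx).eventually (_root_.gt_mem_nhds hN)
    filter_upwards [h1, self_mem_nhdsWithin] with y hy hyM using hueq y hyM N hy.le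
  have hexN : ∀ x, ∃ N : ℕ, r x < 2 ^ N := fun x =>
    ⟨⌈r x⌉₊ + 1, (hceil x).trans_lt (pow_lt_pow_right₀ (by norm_num) (Nat.lt_succ_self _))⟩
  have hus : 𝓜.Smooth u := by
    intro Φ U hΦ z hz
    obtain ⟨N, hN⟩ := hexN (Φ z)
    have h1 : ∀ᶠ y in Filter.map Φ (𝓝 z), u y = S N y := by
      rw [(𝓜.isParam hΦ).map_nhds_eq hz]
      exact hloc _ (CMfd.mem_carrier hΦ hz) N hN
    have h2 : (u ∘ Φ) =ᶠ[𝓝 z] (S N ∘ Φ) := Filter.eventually_map.1 h1
    exact (((hSs N).contDiffAt_comp hΦ hz).congr_of_eventuallyEq h2).contDiffWithinAt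
  have hupper : ∀ y ∈ 𝓜.carrier, u y ≤ 1 + 2 * r y := by
    intro y hy
    rw [hueq y hy _ (hceil y)]
    simp only [hSdef]
    have : ∑ j ∈ Finset.range ⌈r y⌉₊, 2 ^ j * v j y ≤
        ∑ j ∈ Finset.range ⌈r y⌉₊, (if (2 : ℝ) ^ j ≤ r y then (2 : ℝ) ^ j else 0) := by
      refine Finset.sum_le_sum fun j _ => ?_
      split_ifs with h
      · have := (hv01 j y hy).2
        nlinarith [h2p j]
      · rw [hv0 j y hy (not_le.1 h).le, mul_zero]
    linarith [s2_sum_pow_le (hr0 y) ⌈r y⌉₊]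
  have hterm : ∀ y ∈ 𝓜.carrier, ∀ j : ℕ, 0 ≤ 2 ^ j * v j y := fun y hy j =>
    mul_nonneg (by positivity) (hv01 j y hy).1
  have hge1 : ∀ y ∈ 𝓜.carrier, 1 ≤ u y := by
    intro y hy
    simp only [hudef, hSdef]
    linarith [Finset.sum_nonneg fun j (_ : j ∈ Finset.range ⌈r y⌉₊) => hterm y hy j]
  have hlower : ∀ y ∈ 𝓜.carrier, (1 + r y) / 4 ≤ u y := by
    intro y hy
    by_cases h2 : r y < 2
    · linarith [hge1 y hy]
    · push Not at h2
      obtain ⟨k, hk1, hk2⟩ := exists_nat_pow_near (x := r y / 2) (y := 2) (by linarith) (by norm_num)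
      have hkN : k < ⌈r y⌉₊ := by
        by_contra hcon
        push Not at hcon
        have : (2 : ℝ) ^ ⌈r y⌉₊ ≤ 2 ^ k := pow_le_pow_right₀ (by norm_num) hcon
        linarith [hceil y]
      have h3 : 2 ^ k * v k y ≤ ∑ j ∈ Finset.range ⌈r y⌉₊, 2 ^ j * v j y :=
        Finset.single_le_sum (f := fun j => 2 ^ j * v j y) (fun j _ => hterm y hy j)
          (Finset.mem_range.2 hkN)
      rw [hv1 k y hy (by linarith)] at h3
      rw [pow_succ] at hk2
      simp only [hudef, hSdef]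
      linarith
  have hconst : ∀ x ∈ 𝓜.carrier, ∀ j : ℕ, ¬ ((2 : ℝ) ^ j ≤ r x ∧ r x ≤ 2 ^ (j + 1)) →
      ∃ c : ℝ, v j =ᶠ[𝓝[𝓜.carrier] x] fun _ => c := by
    intro x hx j hj
    rw [not_and_or, not_le, not_le] at hj
    rcases hj with hj | hj
    · refine ⟨0, ?_⟩
      have h1 : ∀ᶠ y in 𝓝[𝓜.carrier] x, r y < 2 ^ j := (hrc x hx).eventually (_root_.gt_mem_nhds hj)
      filter_upwards [h1, self_mem_nhdsWithin] with y hy hyM using hv0 j y hyM hy.le
    · refine ⟨1, ?_⟩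
      have h1 : ∀ᶠ y in 𝓝[𝓜.carrier] x, 2 ^ (j + 1) < r y := (hrc x hx).eventually (_root_.lt_mem_nhds hj)
      filter_upwards [h1, self_mem_nhdsWithin] with y hy hyM
      exact hv1 j y hyM (by rw [pow_succ] at hy; linarith)
  have hgrad : ∀ x ∈ 𝓜.carrier, gradSq 𝓜 g u x ≤ (4 * C') ^ 2 := by
    intro x hx
    obtain ⟨N, hN⟩ := hexN x
    rw [gradSq_congr g hx (hloc x hx N hN)]
    simp only [hSdef]
    rw [gradSq_add_const]
    have h1 := s2_sqrt_gradSq_sum_le hm hx (Finset.range N) (F := fun j y => 2 ^ j * v j y)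
      (fun j _ => ((hvs j).diffAt hx).const_mul _)
    have h2 : ∀ j ∈ Finset.range N, Real.sqrt (gradSq 𝓜 g (fun y => 2 ^ j * v j y) x) ≤
        C' * (if (2 : ℝ) ^ j ≤ r x ∧ r x ≤ 2 ^ (j + 1) then (1 : ℝ) else 0) := by
      intro j _
      rw [gradSq_const_mul g _ ((hvs j).diffAt hx)]
      split_ifs with h
      · rw [mul_one]
        refine Real.sqrt_le_iff.2 ⟨hC'0, ?_⟩
        calc ((2 : ℝ) ^ j) ^ 2 * gradSq 𝓜 g (v j) x ≤ ((2 : ℝ) ^ j) ^ 2 * (C / 2 ^ j) ^ 2 := by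
              gcongr; exact hvg j x hx
          _ = C ^ 2 := by field_simp
          _ = C' ^ 2 := (sq_abs C).symm
      · obtain ⟨c, hc⟩ := hconst x hx j h
        rw [gradSq_congr g hx hc, gradSq_const]; simp
    have h3 : Real.sqrt (gradSq 𝓜 g (fun y => ∑ j ∈ Finset.range N, 2 ^ j * v j y) x) ≤ 4 * C' := by
      refine h1.trans ((Finset.sum_le_sum h2).trans ?_)
      rw [← Finset.mul_sum]
      have := s2_count_le (hr0 x) N
      nlinarith
    have h4 : 0 ≤ gradSq 𝓜 g (fun y => ∑ j ∈ Finset.range N, 2 ^ j * v j y) x := gradSq_nonneg hm _ hx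
    rw [← Real.sq_sqrt h4]
    exact pow_le_pow_left₀ (Real.sqrt_nonneg _) h3 2
  have hdd : ∀ (Φ : CE (Fin n) → V) (U : Set (CE (Fin n))), 𝓜.IsHol Φ U → ∀ z ∈ U, ∀ w : Fin n → ℂ,
      |qf (ddc u Φ z) w| ≤ 24 * C' / u (Φ z) * qf (g Φ z) w := by
    intro Φ U hΦ z hz w
    have hx : Φ z ∈ 𝓜.carrier := CMfd.mem_carrier hΦ hz
    obtain ⟨N, hN⟩ := hexN (Φ z)
    rw [ddc_congr_of_eventuallyEq hΦ hz (hloc _ hx N hN)]
    simp only [hSdef]
    rw [ddc_add_const, ddc_sum _ (fun j _ => (hvs j).const_mul _) hΦ hz, qf_sum]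
    have hG : 0 ≤ qf (g Φ z) w := qf_nonneg (hm.posDef hΦ z hz).posSemidef w
    have h2 : ∀ j ∈ Finset.range N, |qf (ddc (fun y => 2 ^ j * v j y) Φ z) w| ≤
        C' * qf (g Φ z) w *
          (if (2 : ℝ) ^ j ≤ r (Φ z) ∧ r (Φ z) ≤ 2 ^ (j + 1) then 1 / (2 : ℝ) ^ j else 0) := by
      intro j _
      rw [ddc_const_mul _ (hvs j) hΦ hz, qf_smul]
      split_ifs with h
      · have a1 := qf_mono (hvu j Φ U hΦ z hz) w
        rw [smulF, qf_smul] at a1
        have a2 := qf_mono (hvl j Φ U hΦ z hz) w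
        rw [smulF, qf_smul] at a2
        have hp : (0 : ℝ) < 2 ^ j := by positivity
        have a3 : C / (2 ^ j) ^ 2 * qf (g Φ z) w ≤ C' / (2 ^ j) ^ 2 * qf (g Φ z) w := by gcongr
        have a4 : -(C' / (2 ^ j) ^ 2 * qf (g Φ z) w) ≤ -(C / (2 ^ j) ^ 2) * qf (g Φ z) w := by
          have : -C ≤ C' := neg_le_abs C
          have e : -(C / (2 ^ j) ^ 2) * qf (g Φ z) w = -(C / (2 ^ j) ^ 2 * qf (g Φ z) w) := by ring
          rw [e]
          linarith
        have : |qf (ddc (v j) Φ z) w| ≤ C' / (2 ^ j) ^ 2 * qf (g Φ z) w :=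
          abs_le.2 ⟨a4.trans a2, a1.trans a3⟩
        rw [abs_mul, abs_of_pos hp]
        calc (2 : ℝ) ^ j * |qf (ddc (v j) Φ z) w| ≤ 2 ^ j * (C' / (2 ^ j) ^ 2 * qf (g Φ z) w) := by gcongr
          _ = C' * qf (g Φ z) w * (1 / 2 ^ j) := by field_simp
      · obtain ⟨c, hc⟩ := hconst _ hx j h
        rw [ddc_congr_of_eventuallyEq hΦ hz hc, ddc_const, qf_zero]; simp
    have hu1 := hge1 _ hx
    have hu2 := hupper _ hx
    calc |∑ j ∈ Finset.range N, qf (ddc (fun y => 2 ^ j * v j y) Φ z) w|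
        ≤ ∑ j ∈ Finset.range N, |qf (ddc (fun y => 2 ^ j * v j y) Φ z) w| :=
          Finset.abs_sum_le_sum_abs _ _
      _ ≤ ∑ j ∈ Finset.range N, C' * qf (g Φ z) w *
          (if (2 : ℝ) ^ j ≤ r (Φ z) ∧ r (Φ z) ≤ 2 ^ (j + 1) then 1 / (2 : ℝ) ^ j else 0) :=
          Finset.sum_le_sum h2
      _ = C' * qf (g Φ z) w * ∑ j ∈ Finset.range N,
          (if (2 : ℝ) ^ j ≤ r (Φ z) ∧ r (Φ z) ≤ 2 ^ (j + 1) then 1 / (2 : ℝ) ^ j else 0) := by
          rw [Finset.mul_sum]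
      _ ≤ C' * qf (g Φ z) w * (24 / (1 + 2 * r (Φ z))) := by
          gcongr; exact s2_sum_inv_le (hr0 _) N
      _ ≤ C' * qf (g Φ z) w * (24 / u (Φ z)) := by gcongr
      _ = 24 * C' / u (Φ z) * qf (g Φ z) w := by ring
  have hupos : ∀ y ∈ 𝓜.carrier, u y ≠ 0 := fun y hy => by linarith [hge1 y hy]
  have hCu : (0 : ℝ) < 4 + 24 * C' := by positivity
  have hsm : 𝓜.Smooth (fun y => (4 + 24 * C') / u y) := (CMfd.smooth_const _).div hus hupos
  have hsm' : 𝓜.Smooth (fun y => -((4 + 24 * C') / u y)) := hsm.neg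
  refine ⟨u, 4 + 24 * C', hus, hCu, hge1, fun y hy => ?_, fun y hy => ?_, fun y hy => ?_, ?_, ?_⟩
  · have := hlower y hy
    have h1 : (4 + 24 * C')⁻¹ ≤ 1 / 4 := by
      rw [inv_eq_one_div]; exact one_div_le_one_div_of_le (by norm_num) (by linarith)
    calc (4 + 24 * C')⁻¹ * (1 + hdist 𝓜 g o y) ≤ 1 / 4 * (1 + r y) := by
          gcongr; linarith [hr0 y]
      _ ≤ u y := by linarith
  · have := hupper y hy
    have h0 := hr0 y
    calc u y ≤ 1 + 2 * r y := this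
      _ ≤ (4 + 24 * C') * (1 + hdist 𝓜 g o y) := by
          show 1 + 2 * r y ≤ (4 + 24 * C') * (1 + r y)
          nlinarith
  · refine (hgrad y hy).trans (pow_le_pow_left₀ (by positivity) (by linarith) 2)
  · rw [leF_iff_qf (isHForm_ddc hus) (hm.toIsHForm.smulF hsm)]
    intro Φ U hΦ z hz w
    rw [smulF, qf_smul]
    have hG : 0 ≤ qf (g Φ z) w := qf_nonneg (hm.posDef hΦ z hz).posSemidef w
    have hu1 := hge1 _ (CMfd.mem_carrier hΦ hz)
    refine (abs_le.1 (hdd Φ U hΦ z hz w)).2.trans ?_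
    gcongr
    linarith
  · rw [leF_iff_qf (hm.toIsHForm.smulF hsm') (isHForm_ddc hus)]
    intro Φ U hΦ z hz w
    rw [smulF, qf_smul]
    have hG : 0 ≤ qf (g Φ z) w := qf_nonneg (hm.posDef hΦ z hz).posSemidef w
    have hu1 := hge1 _ (CMfd.mem_carrier hΦ hz)
    refine le_trans ?_ (abs_le.1 (hdd Φ U hΦ z hz w)).1
    rw [neg_mul, neg_le_neg_iff]
    gcongr
    linarith

end Claimed.Agent.R316
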