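import Claimed.Agent.R316.S2.Geo
import Claimed.Agent.R316.S2.Can
import Claimed.Agent.R316.S2.Exh
import Claimed.Agent.R316.Base.L2M.Interp

/-!
# Row 316, Section 2: Proposition 2.1 (final form)

Owner: helper97.  `prelimData` is proved from the leaves `st2…`, the base exports (`heatData_exists`, `HeatData.moment1`, `bounded_data`, `submean`) and
`st2Interp` (`BP-G11`, `Base/L2M/Interp.lean`) and `emb_st2Immersion`, `emb_st2Spanning` (`BP-G12`, `Base/Emb/Main.lean`).  This file has no `sorry` of its own.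
-/

set_option autoImplicit false
open scoped ContDiff ComplexOrder Topology
open MeasureTheory

namespace Claimed.Agent.R316

variable {V : Type} [NormedAddCommGroup V] [NormedSpace ℝ V] [MeasurableSpace V] [BorelSpace V]
variable [FiniteDimensional ℝ V]
variable {n : ℕ} {𝓜 : CMfd V (Fin n)} {g : HFam V (Fin n)} {o : V}

/-- **Proposition 2.1**, assembled. -/
theorem prelimData_of_statements {𝓜 : CMfd V (Fin n)} {g : HFam V (Fin n)} {o : V}
    (I : InitialData 𝓜 g) (ho : o ∈ 𝓜.carrier)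
    (hHeat : St2Heat 𝓜 g) (hPsi : St2Psi 𝓜 g o) (hInt : St2Interp 𝓜 g)
    (hImm : St2Immersion 𝓜 g) (hSpan : St2Spanning 𝓜 g)
    (hMom : ∀ HD : HeatData 𝓜 g, St2HeatMoment HD)
    (hLY : ∀ HD : HeatData 𝓜 g, St2HeatLY HD)
    (hSub : ∀ HD : HeatData 𝓜 g, St2Submean o HD)
    (hGrowth : St2CanGrowth 𝓜 g o) (hXi : St2Xi 𝓜 g o) (hTr : St2Trunc 𝓜 g o)
    (hCut : St2Cutoffs 𝓜 g o) (hEx : St2Exhaustion 𝓜 g o) (hALD : St2AvgLogD 𝓜 g o)
    (hAL : St2AvgLog 𝓜 g o) (hAR : St2AvgR 𝓜 g o) : Nonempty (PrelimData 𝓜 g o) := by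
  obtain ⟨HD⟩ := hHeat I
  have VC := HD.vol
  obtain ⟨ψ, hψs, hψp, hψg⟩ := hPsi I ho
  obtain ⟨hsep, hcov, hvec, hcan⟩ := hInt I ψ hψs hψp
  obtain ⟨NF, F, F_hol, F_inj, F_imm⟩ := hImm I hsep hcov
  obtain ⟨mX, X, X_hol, X_span⟩ := hSpan I hvec
  have DC := hCut I ho HD (hMom HD) (hLY HD) hTr
  have can : ∀ x ∈ 𝓜.carrier, ∃ S : (CE (Fin n) → V) → CE (Fin n) → ℂ, IsCanSection 𝓜 S ∧
      0 < canNormSq 𝓜 g S x ∧ CanGrowth 𝓜 g o S := by
    intro x hx
    obtain ⟨S, k, hS, hk, hpos, hint⟩ := hcan x hx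
    exact ⟨S, hS, hpos, hGrowth I ho DC HD (hSub HD) ψ S k hψs hk hψg hS hint⟩
  obtain ⟨Xi, Xi_smooth, Xi_dd, Xi_growth⟩ := hXi I ho can
  obtain ⟨u, Cu, u_smooth, Cu_pos, u_ge_one, u_lower, u_upper, u_grad, u_dd_upper, u_dd_lower⟩ :=
    hEx I ho DC
  have ALD := hALD I ho DC HD (hSub HD) (hMom HD)
  have AL := hAL I ho ALD
  have AR := hAR I ho VC DC ALD (can o ho)
  exact ⟨{ NF := NF, F := F, F_hol := F_hol, F_inj := F_inj, F_imm := F_imm, mX := mX, X := X,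
           X_hol := X_hol, X_span := X_span, can := can, Xi := Xi, Xi_smooth := Xi_smooth,
           Xi_dd := Xi_dd, Xi_growth := Xi_growth, u := u, u_smooth := u_smooth,
           u_ge_one := u_ge_one, Cu := Cu, Cu_pos := Cu_pos, u_lower := u_lower, u_upper := u_upper,
           u_grad := u_grad, u_dd_upper := u_dd_upper, u_dd_lower := u_dd_lower,
           avg_log := AL, avg_R := AR }⟩

/-- `BP-G12`. -/
theorem st2Immersion (𝓜 : CMfd V (Fin n)) (g : HFam V (Fin n)) : St2Immersion 𝓜 g :=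
  emb_st2Immersion 𝓜 g

/-- `BP-G12`. -/
theorem st2Spanning (𝓜 : CMfd V (Fin n)) (g : HFam V (Fin n)) : St2Spanning 𝓜 g :=
  emb_st2Spanning 𝓜 g

theorem bisecNonneg_of_bisecPos (hb : BisecPos 𝓜 g) : BisecNonneg 𝓜 g := hb.nonneg

theorem st2Heat (𝓜 : CMfd V (Fin n)) (g : HFam V (Fin n)) : St2Heat 𝓜 g := fun I =>
  heatData_exists (anaSetting_of_initialData I) (bisecNonneg_of_bisecPos I.bisec)

theorem st2HeatMoment (HD : HeatData 𝓜 g) : St2HeatMoment HD := fun I =>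
  HD.moment1 (anaSetting_of_initialData I)

theorem st2HeatLY (HD : HeatData 𝓜 g) : St2HeatLY HD := fun I =>
  HD.bounded_data (anaSetting_of_initialData I)

theorem st2Submean (HD : HeatData 𝓜 g) : St2Submean o HD := fun I ho DC _w hw hsub hG _t ht _x hx =>
  HD.submean (anaSetting_of_initialData I) ho
    (lapCutoffs_of_dyadicCutoffs (anaSetting_of_initialData I) ho DC) hw hsub hG ht hx

/-- **Proposition 2.1.** -/
theorem prelimData (I : InitialData 𝓜 g) (ho : o ∈ 𝓜.carrier) : Nonempty (PrelimData 𝓜 g o) :=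
  prelimData_of_statements I ho (st2Heat 𝓜 g) (st2Psi 𝓜 g o) (st2Interp 𝓜 g) (st2Immersion 𝓜 g)
    (st2Spanning 𝓜 g) st2HeatMoment st2HeatLY st2Submean (st2CanGrowth 𝓜 g o) (st2Xi 𝓜 g o)
    (st2Trunc 𝓜 g o) (st2Cutoffs 𝓜 g o) (st2Exhaustion 𝓜 g o) (st2AvgLogD 𝓜 g o) (st2AvgLog 𝓜 g o)
    (st2AvgR 𝓜 g o)

end Claimed.Agent.R316
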